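import Vale.Agent.P287Q.G.Qrr.Bas
import Vale.Agent.P287Q.G.Bas.Ev
import Vale.Agent.P287Q.G.Map.Psi
import Vale.Agent.P287Q.G.Vir.Std
import Vale.Agent.P287Q.G.Vir.Ind
import Vale.Agent.P269.Loc.Lam
import Vale.Agent.P287Q.G.Br.Fund

/-!
# The calculus of the factors of a correlator
-/

set_option linter.unusedSectionVars false

namespace Vale.Agent.P269

open P291Z Set Function Topology Filter Fock PowerSeries

namespace Qrr.Fc

theorem prod_update {A : Type} [Monoid A] {z : A} (hz : ∀ a, z * a = a * z) {n : ℕ}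
    (g : Fin n → A) (s : Fin n) :
    (List.ofFn (update g s (z * g s))).prod = (List.ofFn g).prod * z := by
  induction n with
  | zero => exact s.elim0
  | succ n ih =>
    rw [List.ofFn_succ, List.ofFn_succ, List.prod_cons, List.prod_cons]
    refine Fin.cases ?_ (fun s => ?_) s
    · simp only [update_self, update_of_ne (Fin.succ_ne_zero _)]
      rw [mul_assoc, hz]
    · rw [update_of_ne (Fin.succ_ne_zero _).symm, mul_assoc, ← ih (fun i => g i.succ) s]
      exact congrArg (fun t : Fin n → A => g 0 * (List.ofFn t).prod)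
        (update_comp_eq_of_injective g (Fin.succ_injective n) s _)

variable {X : Type} [TopologicalSpace X]

theorem cocycle_rep (e : H X) : supp (δ (rep e)) = ∅ :=
  (Classical.epsilon fun a : Zs X => H.mk a = e).2

theorem hcls_rep (e : H X) : hcls (rep e) = e :=
  (hcls_val _).trans (Classical.epsilon_spec (p := fun a : Zs X => H.mk a = e) (H.mk_surj e))

theorem hcls_prod {l : List (Coch X)} (h : ∀ a ∈ l, supp (δ a) = ∅) :
    supp (δ l.prod) = ∅ ∧ hcls l.prod = (l.map hcls).prod := by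
  induction l with
  | nil => exact ⟨cocycle_one, hcls_one⟩
  | cons a l ih =>
    obtain ⟨h1, h2⟩ := ih fun b hb => h b (List.mem_cons_of_mem _ hb)
    have h3 := h a List.mem_cons_self
    rw [List.prod_cons, List.map_cons, List.prod_cons, hcls_mul h3 h1, h2]
    exact ⟨(Zs X).mul_mem h3 h1, rfl⟩

omit [TopologicalSpace X] in
theorem ind_univ : ind (univ : Set X) = 1 := by
  rw [ind_eq_fn, indicator_univ]
  exact fn_one

variable {J : Type} (v : BM X) (c : J → (Ch.Hev X)⟦X⟧) (Θ Θ' : MvPolynomial (J × ℕ) ℂ) (a b : H X)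

theorem intg_add (z : ℂ) : Loc.intg v ((evC c (z • Θ + Θ')).1 * a) =
    z * Loc.intg v ((evC c Θ).1 * a) + Loc.intg v ((evC c Θ').1 * a) := by
  rw [map_add, map_smul, Subalgebra.coe_add, Subalgebra.coe_smul, add_mul, smul_mul_assoc, map_add,
    map_smul, smul_eq_mul]

theorem intg_mul : Loc.intg v ((evC c (Θ' * Θ)).1 * a) =
    Loc.intg (cap (evC c Θ').1 v) ((evC c Θ).1 * a) := by
  rw [Loc.intg_cap, map_mul (evC c), Subalgebra.coe_mul, mul_assoc, Ch.Hev.commute (evC c Θ').2]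

end Qrr.Fc

open Qrr.Fc

variable {S Λ R J K ι ν κ : Type} [Fintype S] [Fintype Λ] [Fintype R] [Fintype J] [Fintype K]
  [Fintype ι] [DecidableEq ι] [Fintype ν] [Fintype κ]

namespace Ch

variable {ch : Ch ι J} {F : Fam S Λ R J K} {ℓ : R → ι → ℤ}

variable (F) in
/-- The class of a descendant insertion at the marked point `m`. -/
noncomputable def ins1 (Z : Set (ch.WF ν κ Λ)) (m : Mk ν κ) (x : ℕ × H (F.X F.cone)) :
    H (Quo (actF F.toWt) Z) :=
  hcls (psiF m) ^ x.1 * hcls (evF m F.cone (rep x.2))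

variable (F) in
/-- The class of the descendant insertions `f`. -/
noncomputable def insC {n : ℕ} (Z : Set (ch.WF (Fin n ⊕ Fin 0) (Fin 0) Λ))
    (f : Fin n → ℕ × H (F.X F.cone)) : H (Quo (actF F.toWt) Z) :=
  (List.ofFn fun s => ins1 F Z (mk0 s) (f s)).prod

/-- The solutions in a cycle form a good set. -/
theorem Ok.gz_cyc {e : K → ι → ℕ} {K₀ : RD R} {b : ℕ} {U : Set (ch.WF ν κ Λ)}
    (h : ch.Ok F e K₀ ℓ b U) (u : ν → J → ℕ) : GZ F ℓ (ch.solF ν κ F ∩ ch.cyc κ F u) := by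
  have hl : IsLocallyClosed (ch.cyc κ F u) := isClosed_closure.isLocallyClosed.inter h.lc_baseF
  have hv : Lev F (ch.cyc κ F u) := lev_cyc h.inv h.cuts u
  have hd := h.toStd.dom_lev h.pr hv hl
  obtain ⟨k, i, hk, -⟩ := h.toStd.exists_isKP' hv.adm hd
  have a1 := hd.isAct
  have a2 := hd.isActZ hk
  have hb : ∀ x ∈ ch.solF ν κ F ∩ ch.cyc κ F u, x.2 ∈ ch.base (Mk ν κ) := fun _ a => a.1.1.2.1
  obtain ⟨C, hC, e⟩ := isClosed_induced_iff.1 k.isClosed_Zs
  obtain ⟨O, hO, e'⟩ := hd.opn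
  have hz : IsLocallyClosed (ch.solF ν κ F ∩ ch.cyc κ F u) := by
    refine (congrArg _ (Subset.antisymm (fun x a => ?_) fun x a => ?_)).mp
      ((hl.inter hO.isLocallyClosed).inter hC.isLocallyClosed)
    · exact (hd.mem_Zs hk (t := Holo.Sp.of (actF F.toWt) x (e'.ge a.1))).1 (e.le a.2)
    · exact ⟨e'.le (hd.sub a), e.ge ((hd.mem_Zs hk (t := Holo.Sp.of (actF F.toWt) x (hd.sub a))).2 a)⟩
  exact ⟨⟨h.cuts, hb, a2, orb_mono hd.orb hd.sub hz⟩, h.inv, h.wt, inter_subset_left,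
    fun _ a => hv.adm a.2, h.cuts.okψ hb, fun j => ⟨_, okX _ j⟩, fun j => ⟨_, _, h.cuts.okK hb j⟩⟩

namespace GZ

section gen

variable {Z : Set (ch.WF ν κ Λ)} (h : GZ F ℓ Z)
include h

theorem vl_cone (m : Mk ν κ) : ∀ x ∈ Z, vl x m ∈ F.cone := fun _ a => vl_mem (h.sol a) m

/-- without persistent nodes all factors are cocycles -/
theorem cocycle0 [IsEmpty κ] {f : Fac F.toWt ν κ} (hf : f.At Z) :
    supp (δ (F.coch Z f)) = ∅ := by
  cases f with
  | psi m => exact haveI := h.act; psiF_cocycle h.orb h.cuts h.base m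
  | ev m A c =>
    change supp (δ (evF m A (rep c))) = ∅
    rw [h.evF_eq m hf]
    exact cocycle_pull (ContinuousMap.continuous _) (cocycle_rep c)
  | par A c =>
    change supp (δ (parF A (rep c))) = ∅
    rw [h.parF_eq hf]
    exact cocycle_pull (ContinuousMap.continuous _) (cocycle_rep c)
  | dg q => exact isEmptyElim q
  | tw Θ => exact cocycle_rep _

theorem hcls_evF (m : Mk ν κ) (c : H (F.X F.cone)) : hcls (evF m F.cone (rep c)) =
    H.map (h.eqh_vl m (h.vl_cone m)).toEqv.qm c := h.cl_ev m (h.vl_cone m) c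

theorem ins1_mem (m : Mk ν κ) (r : ℕ) {c : H (F.X F.cone)} (hc : c ∈ Hev _) :
    ins1 F Z m (r, c) ∈ Hev _ :=
  mul_mem (pow_mem (h.cl_psi_mem m) r) (h.hcls_evF m c ▸ map_mem_Hev _ hc)

theorem ins1_add (m : Mk ν κ) (r : ℕ) (c : H (F.X F.cone)) (x : ℕ × H (F.X F.cone)) :
    ins1 F Z m (x.1 + r, c * x.2) = ins1 F Z m (r, c) * ins1 F Z m x := by
  have e := Hev.commute (pow_mem (h.cl_psi_mem m) x.1)
  simp only [ins1, h.hcls_evF, map_mul]
  rw [add_comm, pow_add, mul_assoc, mul_assoc, ← mul_assoc (hcls (psiF m) ^ x.1),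
    ← mul_assoc (H.map _ c)]
  exact congrArg (fun t => _ * (t * _)) (e _)

theorem constCoeff_indC (j : J) : constantCoeff (indC F.toWt Z j) = 1 := by
  have := h.act
  obtain ⟨r, a⟩ := h.fld j
  rw [indC_eq, map_mul, a.constCoeff h.orb, one_mul, constantCoeff_invOfUnit, inv_one,
    Units.val_one]

end gen

variable {n : ℕ} {Z : Set (ch.WF (Fin n ⊕ Fin 0) (Fin 0) Λ)} (h : GZ F ℓ Z)
include h

theorem at_fsF (Θ) (f : Fin n → ℕ × H (F.X F.cone)) : ∀ a ∈ F.fsF _ Θ f, a.At Z := by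
  intro a ha
  simp only [Wt.fsF, List.mem_cons, List.mem_flatten, List.mem_ofFn] at ha
  rcases ha with rfl | rfl | ⟨_, ⟨s, rfl⟩, ha⟩
  · trivial
  · exact fun _ _ => trivial
  · rcases List.mem_append.1 ha with ha | ha
    · rw [List.eq_of_mem_replicate ha]; trivial
    · rw [List.mem_singleton.1 ha]; exact h.vl_cone _

theorem prod_fsF (Θ) (f : Fin n → ℕ × H (F.X F.cone)) :
    ((F.fsF _ Θ f).map (F.cl Z)).prod = (Qrr.evC (indC F.toWt Z) Θ).1 * insC F Z f := by
  rw [Wt.fsF, List.map_cons, List.map_cons, List.prod_cons, List.prod_cons,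
    h.cl_par (A := univ) fun _ _ => trivial, map_one, one_mul, List.map_flatten, List.prod_flatten,
    List.map_ofFn, List.map_ofFn]
  refine congrArg₂ (· * ·) (Fam.cl_tw Θ) (congrArg _ (congrArg _ (funext fun s => ?_)))
  simp only [comp_apply, List.map_append, List.map_replicate, List.prod_append,
    List.prod_replicate, List.map_cons, List.map_nil, List.prod_cons, List.prod_nil, mul_one]
  rfl

theorem insC_update (f : Fin n → ℕ × H (F.X F.cone)) (s : Fin n) (r : ℕ) {c : H (F.X F.cone)}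
    (hc : c ∈ Hev _) : insC F Z (update f s ((f s).1 + r, c * (f s).2)) =
      insC F Z f * ins1 F Z (mk0 s) (r, c) := by
  rw [insC, insC, ← prod_update (Hev.commute (h.ins1_mem _ r hc)), ← h.ins1_add _ r c]
  exact congrArg (fun t => (List.ofFn t).prod)
    (funext (apply_update (fun s => ins1 F Z (mk0 s)) f s _))

end GZ

end Ch

namespace Fam

variable [DecidableEq R] {F : Fam S Λ R J K} {k D : ℕ} {g : ℤ} {d : R → ℤ} {u : ν → J → ℕ}

/-- The integrals without persistent nodes only depend on the classes of the factors. -/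
theorem intg_sel [IsEmpty κ] (hz : Ch.GZ F ℓs (F.Zs κ k D g d u))
    [CompactSpace (F.Mod κ k D g d u)] (v : BM (F.Mod κ k D g d u)) {P : AM Λ R J ν κ → Prop}
    (hP : IsClopen (F.sel P : Set (F.Mod κ k D g d u))) {fs : List (Fac F.toWt ν κ)}
    (hf : ∀ f ∈ fs, f.At (F.Zs κ k D g d u)) :
    F.intg v P fs = Loc.intg v (hcls (ind (F.sel P)) * (fs.map (F.cl _)).prod) := by
  obtain ⟨a, b⟩ := hcls_prod (l := fs.map (F.coch (F.Zs κ k D g d u)))
    (List.forall_mem_map.2 fun f hf' => hz.cocycle0 (hf f hf'))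
  rw [List.map_map] at b
  exact (Loc.intg_hcls v ((P291Z.Zs _).mul_mem (cocycle_ind hP) a)).symm.trans
    (congrArg _ ((hcls_mul (cocycle_ind hP) a).trans (congrArg _ b)))

theorem intg_true [IsEmpty κ] (hD : F.BigD k D) (hz : Ch.GZ F ℓs (F.Zs κ k D g d u))
    [CompactSpace (F.Mod κ k D g d u)] (v : BM (F.Mod κ k D g d u))
    {fs : List (Fac F.toWt ν κ)} (hf : ∀ f ∈ fs, f.At (F.Zs κ k D g d u)) :
    F.intg v (fun _ => True) fs = Loc.intg v (fs.map (F.cl _)).prod := by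
  rw [intg_sel hz v (by rw [sel_true hD]; exact isClopen_univ) hf, sel_true hD, ind_univ,
    hcls_one, one_mul]

section one

variable {F : Fam Empty Λ R J K} (h : F.One k)
include h

theorem One.compactSpace [IsEmpty κ] (hD : F.BigD k D) : CompactSpace (F.Mod κ k D g d u) :=
  let ⟨_, e⟩ := h.pt
  Cpt.compactSpace_mod h.good h.big hD rfl (e ▸ isCompact_singleton) subset_rfl
    (fun _ a => ⟨1, isUnit_one, h.good.invB _ isUnit_one _ a⟩) u

variable (ν κ) in
theorem One.gz' (hD : F.BigD k D) (g : ℤ) (d : R → ℤ) (u : ν → J → ℕ) :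
    Ch.GZ F ℓs (F.Zs κ k D g d u) :=
  let ⟨_, a⟩ := h.nice.reg
  let ⟨_, b⟩ := h.nice.sm
  let ⟨_, c⟩ := h.good.ok' ν κ a b h.big hD g d
  c.gz_cyc u

variable (ν κ) in
theorem One.gz (g : ℤ) (d : R → ℤ) : ∀ᶠ D in atTop, Ch.GZ F ℓs (F.Z0 ν κ k D g d) :=
  (F.eventually_bigD k).mono fun _ a => h.gz' ν κ a g d 0

/-- **Normal form** of the integrals of the absolute theory. -/
theorem One.intg_cl [IsEmpty κ] (g : ℤ) (d : R → ℤ) : ∀ᶠ D in atTop,
    ∀ (v : BM (F.Mod κ k D g d (0 : ν → J → ℕ))) (fs : List (Fac F.toWt ν κ)),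
      (∀ f ∈ fs, f.At (F.Z0 ν κ k D g d)) →
      F.intg v (fun _ => True) fs = Loc.intg v (fs.map (F.cl _)).prod :=
  ((h.gz ν κ g d).and (F.eventually_bigD k)).mono fun _ a v _ hf =>
    haveI := h.compactSpace (ν := ν) (κ := κ) (g := g) (d := d) (u := 0) a.2
    intg_true a.2 a.1 v hf

theorem One.intg_eq (n : ℕ) (g : ℤ) (d : R → ℤ) : ∀ᶠ D in atTop,
    ∀ (v : BM (F.Mod (Fin 0) k D g d (0 : Fin n ⊕ Fin 0 → J → ℕ))) Θ f,
      F.intg v (fun _ => True) (F.fsF _ Θ f) =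
        Loc.intg v ((Qrr.evC (Ch.indC F.toWt _) Θ).1 * Ch.insC F _ f) :=
  ((h.gz _ _ g d).and (h.intg_cl g d)).mono fun _ a v Θ f =>
    (a.2 v _ (a.1.at_fsF Θ f)).trans (congrArg _ (a.1.prod_fsF Θ f))

end one

end Fam

theorem St.facQ : St.FacQ := by
  intro Λ R J K _ _ _ _ _ F k d j n h
  filter_upwards [h.gz (Fin n ⊕ Fin 0) (Fin 0) (j + 1) d, h.intg_eq n (j + 1) d] with D hz e v f
  refine ⟨fun Θ Θ' z => ?_, fun Θ Θ' => ?_, hz.constCoeff_indC, fun Θ s r c hc => ?_⟩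
  · exact (e v _ f).trans ((intg_add v _ Θ Θ' _ z).trans
      (congrArg₂ (z * · + ·) (e v Θ f).symm (e v Θ' f).symm))
  · exact (e v _ f).trans ((intg_mul v _ Θ Θ' _).trans (e _ Θ f).symm)
  · refine (e v _ _).trans (Eq.trans ?_ ((e _ Θ f).trans (Loc.intg_cap v _ _)).symm)
    exact congrArg _ ((congrArg _ (hz.insC_update f s r hc)).trans (mul_assoc _ _ _).symm)

end Vale.Agent.P269
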