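import Vale.Agent.P287Q.G.Fg.Defs
import Vale.Agent.P269.Map.SQD
import Vale.Agent.P287Q.G.Br.Cls
import Vale.Agent.P269.Qrr.AlgA

/-!
# Quantum Riemann-Roch: the geometric inputs
-/

set_option linter.unusedSectionVars false

namespace Vale.Agent.P269

open P291Z Set Function Topology Filter Fock PowerSeries

variable {S Λ R J K ν κ : Type} [Fintype S] [Fintype Λ] [Fintype R] [Fintype J] [Fintype K]
  [Fintype ν] [Fintype κ]

namespace Ch

variable {ι : Type} [Fintype ι] [DecidableEq ι] {ch : Ch ι J}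

/-- The nodes of the universal curve over `Z`. -/
def nod (Z : Set (ch.WF ν κ Λ)) : Set (ch.WC ν κ Λ) :=
  {x | x ∈ unv Z ∧ IsNode ch.o (crv x.1.2) x.2}

variable (ch ν κ S Λ) in
/-- The tangent space of the curve at a point of the universal curve. -/
@[reducible] noncomputable def sdT : SD (ch.AU ν κ S) (ch.WC ν κ Λ) (V ch.M) where
  ρ s v i := s.2 i • s.1.2.1 i (v i)
  P₀ := ⊤
  B x := Submodule.span ℂ {v | ∃ γ : ℂ → V ch.M, AnalyticAt ℂ γ 0 ∧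
    (∀ᶠ t in 𝓝 0, γ t ∈ crv x.1.2) ∧ γ 0 = x.2 ∧ v = deriv γ 0}
  N x := Submodule.span ℂ (range fun i => Pi.single i (x.2 i))

/-- The inclusion of the nodes. -/
noncomputable def inN (F : Wt S Λ R J) (Z : Set (ch.WF ν κ Λ)) : Quo (actC F) (nod Z) → Quo (actC F) (unv Z) :=
  Quo.incl _ fun _ h => h.1

/-- The class `c` on the nodes restricts to `P a b` whenever the tangent space has Chern roots
`a`, `b`. -/
def Roots (F : Wt S Λ R J) (Z : Set (ch.WF ν κ Λ)) (c : Hev (Quo (actC F) (nod Z)))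
    (P : ∀ (A : Type) [CommRing A] [Algebra ℂ A], A → A → A) : Prop :=
  ∀ (T : Type) [TopologicalSpace T] (f : C(T, Quo (actC F) (nod Z))) (a b : Hev T),
    Grr.pS f ((ch.sdT S Λ ν κ).ch (actC F) (nod Z)) = (1 + C a * X) * (1 + C b * X) →
      Hev.map f c = P _ a b

variable (F : Fam S Λ R J K) (e : K → ι → ℕ)

/-- The nodes of the universal curve over the moduli space. -/
abbrev ModN (S₀ : Set (ch.WF ν κ Λ)) : Type := Quo (actC F.toWt) (nod (ch.solF ν κ F ∩ S₀))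

/-- The virtual class of the nodes. -/
noncomputable def virN (S₀ : Set (ch.WF ν κ Λ)) : BM (ModN F S₀) := Classical.epsilon
  ((ch.kdC ν κ F e).IsV (actC F.toWt) (nod (ch.solF ν κ F ∩ S₀)) (nod S₀))

/-- Integration along the fibres of the universal curve. -/
noncomputable def pshC (S₀ : Set (ch.WF ν κ Λ)) (a : H (ModC F S₀)) : BM (ModS F S₀) :=
  push (prC _ _) (cap a (virC F e S₀))

/-- Integration over the nodes. -/
noncomputable def pshN (S₀ : Set (ch.WF ν κ Λ)) (a : H (ModN F S₀)) : BM (ModS F S₀) :=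
  push (prC _ _ ∘ inN _ _) (cap a (virN F e S₀))

/-- A class of the target on the universal curve. -/
noncomputable def eC (Z : Set (ch.WF ν κ Λ)) (c : H (F.X F.cone)) : H (Quo (actC F.toWt) (unv Z)) :=
  hcls (evC F.cone (rep c))

/-- **Grothendieck-Riemann-Roch** for the index bundle of the field `j`, against the virtual
class. -/
def QC (S₀ : Set (ch.WF ν κ Λ)) : Prop :=
  ∃ Φ : ℕ → Hev (ModN F S₀), (∀ n, Roots _ _ (Φ n) fun _ _ _ a b => coeff n (Grr.mumS a b)) ∧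
    ∀ j n, cap (coeff (n + 1) (Qrr.chT (indC F.toWt _ j))).1 (virF F e S₀) =
      ∑ q ∈ Finset.HasAntidiagonal.antidiagonal (n + 2),
        ((bernoulli q.1 : ℚ) / (q.1.factorial * q.2.factorial) : ℂ) •
          (pshC F e S₀ (((ch.k : ℂ)⁻¹ • oC _ _ ch.χ) ^ q.1 *
            eC F _ (F.lc _ (F.wt j) (F.w j) ^ q.2)) - if q.1 = 0 then 0 else ∑ a,
            cap (hcls (psiF a) ^ (q.1 - 1) *
              hcls (evF a F.cone (rep (F.lc _ (F.wt j) (F.w j) ^ q.2)))) (virF F e S₀)) +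
      ∑ q ∈ Finset.HasAntidiagonal.antidiagonal n, (q.2.factorial : ℂ)⁻¹ •
        pshN F e S₀ (hpull (inN _ _) (eC F _ (F.lc _ (F.wt j) (F.w j) ^ q.2)) * (Φ q.1).1)

end Ch

/-- The marked point with number `s`. -/
abbrev mk0 {n : ℕ} (s : Fin n) : Ch.Mk (Fin n ⊕ Fin 0) (Fin 0) := .inl (.inl s)

/-- The factors of a correlator with twisting class `Θ` and descendant insertions `f`. -/
noncomputable def Wt.fsF (F : Wt S Λ R J) (A : Set ((Λ → ℂ) × (J → ℂ)))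
    (Θ : MvPolynomial (J × ℕ) ℂ) {n : ℕ} (f : Fin n → ℕ × H (F.X A)) :
    List (Fac F (Fin n ⊕ Fin 0) (Fin 0)) :=
  .tw Θ :: .par univ 1 :: (List.ofFn fun s =>
    List.replicate (f s).1 (.psi (mk0 s)) ++ [.ev (mk0 s) A (f s).2]).flatten

/-- Connected domains with `n` marked points. -/
noncomputable def Wt.exN (F : Wt S Λ R J) (n : ℕ) (Θ : MvPolynomial (J × ℕ) ℂ) : F.Ex :=
  ⟨fun ν κ m => m.Conn ∧ Nat.card (Ch.Mk ν κ) = n, Θ, univ, 1⟩

namespace Qrr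

/-- The monomial of the insertions `f`. -/
noncomputable def monF {V : Type} [AddCommGroup V] [Module ℂ V] (p : Par ℂ V) {n : ℕ}
    (f : Fin n → ℕ × V) : Fock.S (p.fs ℕ) :=
  (List.ofFn fun s => ι _ (Finsupp.single (f s).1 (f s).2)).prod

/-- `∑ Θ₁ t ⊗ Θ₂ t` is the coproduct of `Θ`. -/
def Cop (Θ : MvPolynomial (J × ℕ) ℂ) {β : Type} (T : Finset β)
    (Θ₁ Θ₂ : β → MvPolynomial (J × ℕ) ℂ) : Prop :=
  ∀ (A : Type) [CommRing A] [Algebra ℂ A] (c c' : J → A⟦X⟧), (∀ j, constantCoeff (c j) = 1) →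
    (∀ j, constantCoeff (c' j) = 1) →
    evC (fun j => c j * c' j) Θ = ∑ t ∈ T, evC c (Θ₁ t) * evC c' (Θ₂ t)

end Qrr

namespace Fam

variable (F : Fam S Λ R J K) [DecidableEq R] (k : ℕ)

/-- The correlators of the absolute theory with a selector. -/
noncomputable def corP {n : ℕ} (P : AM Λ R J (Fin n ⊕ Fin 0) (Fin 0) → Prop)
    (Θ : MvPolynomial (J × ℕ) ℂ) (d : R → ℤ) (j : ℤ) (f : Fin n → ℕ × H (F.X F.cone)) : ℂ :=
  F.inv k (j + 1) d 0 P (F.fsF _ Θ f)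

theorem cor_getP (P : ∀ ν κ : Type, AM Λ R J ν κ → Prop) (Θ d j) (l : List (ℕ × H (F.X F.cone)))
    {n : ℕ} (h : n = l.length) : F.cor k ⟨P, Θ, univ, 1⟩ 0 _ F.cone d j l [] [] =
      F.corP k (P _ _) Θ d j fun s => l.get (s.cast h) := by
  subst h
  have e : (Sum.elim (0 : Fin l.length → J → ℕ) fun s : Fin ([] : List (ℕ × H (F.X F.cone))).length =>
      ((([] : List (ℕ × H (F.X F.cone))).get s).1 + 1) • (0 : J → ℕ)) =
      (0 : Fin l.length ⊕ Fin 0 → J → ℕ) := funext fun s => by cases s <;> simp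
  unfold cor
  rw [e, show j + 1 - (([] : List (ℕ × ℕ)).length : ℕ) = j + 1 from sub_zero _]
  exact congrArg _ (congrArg _ (congrArg _ ((List.append_nil _).trans (List.append_nil _))))

theorem cor_ofFnP (P : ∀ ν κ : Type, AM Λ R J ν κ → Prop) (Θ d j) {n : ℕ}
    (f : Fin n → ℕ × H (F.X F.cone)) :
    F.cor k ⟨P, Θ, univ, 1⟩ 0 _ F.cone d j (List.ofFn f) [] [] = F.corP k (P _ _) Θ d j f :=
  (F.cor_getP k P Θ d j _ List.length_ofFn.symm).trans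
    (congrArg _ (funext fun s => by simp))

variable (D : ℕ) (g : ℤ) (d : R → ℤ)

variable (ν κ) in
/-- The base cycle of the absolute theory in the standard chart. -/
abbrev cy0 : Set ((F.sch ν κ k D g d).WF ν κ Λ) := (F.sch ν κ k D g d).cyc κ F (0 : ν → J → ℕ)

/-- The integral of `a` and the factors `fs` over the universal curve. -/
noncomputable def intC (fs : List (Fac F.toWt ν κ)) (a : H (F.ModC ν κ k D g d)) : ℂ :=
  F.intg (Ch.pshC F (F.tdeg (F.sch ν κ k D g d)) (F.cy0 ν κ k D g d) a) (fun _ => True) fs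

/-- The integral of `a` and the factors `fs` over the nodes. -/
noncomputable def intN (fs : List (Fac F.toWt ν κ)) (a : H (Ch.ModN F (F.cy0 ν κ k D g d))) : ℂ :=
  F.intg (Ch.pshN F (F.tdeg (F.sch ν κ k D g d)) (F.cy0 ν κ k D g d) a) (fun _ => True) fs

/-- The hypotheses of quantum Riemann-Roch. -/
structure One (F : Fam Empty Λ R J K) (k : ℕ) : Prop where
  nice : F.Nice 0
  abs : F.Abs
  pt : ∃ l, F.B = {l}
  big : F.Big k

end Fam

namespace St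

/-- **Grothendieck-Riemann-Roch** on the moduli space. -/
def QC : Prop :=
  ∀ {Λ R J K ν : Type} [Fintype Λ] [Fintype R] [Fintype J] [Fintype K] [Fintype ν] [DecidableEq R]
    (F : Fam Empty Λ R J K) (k : ℕ) (g : ℤ) (d : R → ℤ), F.One k →
    ∀ᶠ D in atTop, Ch.QC F (F.tdeg (F.sch ν (Fin 0) k D g d)) (F.cy0 ν (Fin 0) k D g d)

/-- Integrals over the universal curve. -/
def UcP : Prop :=
  ∀ {Λ R J K : Type} [Fintype Λ] [Fintype R] [Fintype J] [Fintype K] [DecidableEq R]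
    (F : Fam Empty Λ R J K) (k : ℕ) (Θ) (d : R → ℤ) (j : ℤ) {n : ℕ} (f : Fin n → ℕ × H (F.X F.cone))
    (r : ℕ) (c : H (F.X F.cone)), F.One k → c ∈ Ch.Hev _ → ∀ᶠ D in atTop,
    F.intC k D (j + 1) d (F.fsF _ Θ f) (((k : ℂ)⁻¹ •
      Ch.oC _ _ (F.sch (Fin n ⊕ Fin 0) (Fin 0) k D (j + 1) d).χ) ^ r * Ch.eC F _ c) = F.corP k (fun m => ¬m.Un F.θ (mk0 0)) Θ d j (Fin.cons (r, c) f) -
      if r = 0 then ∑ s, if (f s).1 = 0 then 0 else
        F.corP k (fun _ => True) Θ d j (update f s ((f s).1 - 1, c * (f s).2)) else 0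

/-- Splitting off the component of the first marked point, of a given type. -/
def PrQ : Prop :=
  ∀ {Λ R J K : Type} [Fintype Λ] [Fintype R] [Fintype J] [Fintype K] [DecidableEq R]
    (F : Fam Empty Λ R J K) (k : ℕ) {V : Type} [AddCommGroup V] [Module ℂ V] (p : Fock.Par ℂ V)
    (i : V →ₗ[ℂ] H (F.X F.cone)) (Θ) {β : Type} (T : Finset β) (Θ₁ Θ₂), F.One k →
    IsEv p (parH _) i → Qrr.Cop Θ T Θ₁ Θ₂ →
    ∀ (d d₁ : R → ℤ) (j j₁ : ℤ) (n₁ : ℕ) {n : ℕ} (f : Fin n → ℕ × V) (a : ℕ) (v : V),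
    F.corP k (fun m => ∃ M : Set _, M.ncard = n₁ ∧ m.CTyp (m.p (mk0 0)) (j₁ + 1) d₁ M) Θ d j
      (Fin.cons (a, i v) (Prod.map id i ∘ f)) =
    ∑ t ∈ T, Deg.tp (F.ser0 k (F.exN n₁ (Θ₁ t)) p i d₁ j₁)
      (F.ser0 k (F.exT (Θ₂ t)) p i (d - d₁) (j - j₁))
      (ι _ (Finsupp.single a v, 0) * Fock.map _ (Deg.isEv_diag (p.fs ℕ)) (Qrr.monF p f))

/-- The twisted three point invariants of genus zero and degree zero. -/
def ThreeT : Prop :=
  ∀ {Λ R J K : Type} [Fintype Λ] [Fintype R] [Fintype J] [Fintype K] [DecidableEq R]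
    (F : Fam Empty Λ R J K) (k : ℕ) (Θ) (u : J → Ch.Hev (F.X F.cone)), F.One k →
    (∀ j, (u j).1 = F.lc _ 0 (F.w j)) → ∀ f : Fin 3 → ℕ × H (F.X F.cone),
    F.corP k (fun m => m.Conn) Θ 0 (-1) f = if ∀ s, (f s).1 = 0 then
      F.intX _ ((Qrr.evC (fun j => 1 + C (u j) * X) Θ).1 * (f 0).2 * (f 1).2 * (f 2).2) else 0

/-- Integrals over the nodes. -/
def NdQ : Prop :=
  ∀ {Λ R J K : Type} [Fintype Λ] [Fintype R] [Fintype J] [Fintype K] [DecidableEq R]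
    (F : Fam Empty Λ R J K) (k : ℕ) (u : J → Ch.Hev (F.X F.cone)) {B : Type} [Fintype B]
    (e e' : B → H (F.X F.cone)) (Θ) {β : Type} (T : Finset β) (Θ₁ Θ₂), F.One k →
    (∀ j, (u j).1 = F.lc _ 0 (F.w j)) → F.IsCas e e' → Qrr.Cop Θ T Θ₁ Θ₂ →
    ∀ (d : R → ℤ) (j : ℤ) {n : ℕ} (f : Fin n → ℕ × H (F.X F.cone)) (c : H (F.X F.cone))
      (I : Finset (ℕ × ℕ)) (w : ℕ × ℕ → ℂ), c ∈ Ch.Hev _ → ∀ᶠ D in atTop,
      ∀ Φ : Ch.Hev (Ch.ModN F (F.cy0 (Fin n ⊕ Fin 0) (Fin 0) k D (j + 1) d)), (Ch.Roots _ _ Φ fun _ _ _ a b => ∑ q ∈ I, w q • ((-a) ^ q.1 * (-b) ^ q.2)) →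
      2 * F.intN k D (j + 1) d (F.fsF _ Θ f) (hpull (Ch.inN _ _) (Ch.eC F _ c) * Φ.1) =
        ∑ q ∈ I, w q * ∑ t ∈ T, ∑ b, F.corP k (fun _ => True) (Θ₁ t) d (j - 1)
          (Fin.cons (q.1, c * (Qrr.evC (fun j => (1 + C (u j) * X).invOfUnit 1) (Θ₂ t)).1 * e b)
            (Fin.cons (q.2, e' b) f))

/-- The part where the first marked point lies on a component that becomes unstable. -/
def UnQ : Prop :=
  ∀ {Λ R J K : Type} [Fintype Λ] [Fintype R] [Fintype J] [Fintype K] [DecidableEq R]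
    (F : Fam Empty Λ R J K) (k : ℕ) (C : Deg.Coh) (i : C.H →ₗ[ℂ] H (F.X F.cone))
    (u : J → Ch.Hev (F.X F.cone)) (Θ) {β : Type} (T : Finset β) (Θ₁ Θ₂), F.One k → F.IsCoh C i →
    (∀ j, (u j).1 = F.lc _ 0 (F.w j)) → Qrr.Cop Θ T Θ₁ Θ₂ →
    ∀ (d : R → ℤ) (j : ℤ) {n : ℕ} (f : Fin n → ℕ × C.H) (r : ℕ) (c : H (F.X F.cone))
      (Q : β → SymB (C.p.fs ℕ)), c ∈ Ch.Hev _ →
    (∀ t ∈ T, ∀ x y, (Q t).1 x y = F.intX _
      ((Qrr.evC (fun j => 1 + PowerSeries.C (u j) * X) (Θ₁ t)).1 * c * i (x 0) * i (y 0))) →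
    F.corP k (fun _ => True) Θ d j (Fin.cons (r, c) (Prod.map id i ∘ f)) =
      F.corP k (fun m => ¬m.Un F.θ (mk0 0)) Θ d j (Fin.cons (r, c) (Prod.map id i ∘ f)) +
      (if r = 0 then ∑ t ∈ T,
        F.ser0 k (F.exT (Θ₂ t)) C.p i d (j + 1) (con2 _ (Q t) (Qrr.monF C.p f)) else 0) +
      ∑ t ∈ T, F.corP k (fun m => m.Conn) (Θ₁ t) 0 0 ![(r, c)] *
        F.ser0 k (F.exT (Θ₂ t)) C.p i d j (Qrr.monF C.p f)

/-- The calculus of the factors of a correlator. -/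
def FacQ : Prop :=
  ∀ {Λ R J K : Type} [Fintype Λ] [Fintype R] [Fintype J] [Fintype K] [DecidableEq R]
    (F : Fam Empty Λ R J K) (k : ℕ) (d : R → ℤ) (j : ℤ) {n : ℕ}, F.One k → ∀ᶠ D in atTop,
    ∀ (v : BM (F.Mod (Fin 0) k D (j + 1) d (0 : Fin n ⊕ Fin 0 → J → ℕ)))
      (f : Fin n → ℕ × H (F.X F.cone)),
    (∀ Θ Θ' (z : ℂ), F.intg v (fun _ => True) (F.fsF _ (z • Θ + Θ') f) =
      z * F.intg v (fun _ => True) (F.fsF _ Θ f) + F.intg v (fun _ => True) (F.fsF _ Θ' f)) ∧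
    (∀ Θ Θ', F.intg v (fun _ => True) (F.fsF _ (Θ' * Θ) f) =
      F.intg (cap (Qrr.evC (Ch.indC F.toWt _) Θ').1 v) (fun _ => True) (F.fsF _ Θ f)) ∧
    (∀ x, constantCoeff (Ch.indC F.toWt (F.Z0 (Fin n ⊕ Fin 0) (Fin 0) k D (j + 1) d) x) = 1) ∧
    ∀ Θ s (r : ℕ), ∀ c ∈ Ch.Hev _,
      F.intg v (fun _ => True) (F.fsF _ Θ (update f s ((f s).1 + r, c * (f s).2))) =
      F.intg (cap (hcls (Ch.psiF (mk0 s)) ^ r * hcls (Ch.evF (mk0 s) F.cone (rep c))) v)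
        (fun _ => True) (F.fsF _ Θ f)

end St

end Vale.Agent.P269
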