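import Vale.Agent.P287Q.G.Qrr.Stm
import Vale.Agent.P269.Qrr.AlgB
import Vale.Agent.P287Q.G.PA.Defs

/-!
# Quantum Riemann-Roch: algebraic preparations for the assembly
-/

namespace Vale.Agent.P269.Qrr

open Fock Finset Function

namespace Asm

section mon

variable {V : Type} [AddCommGroup V] [Module ℂ V] {p : Par ℂ V}

theorem cons_monF {n : ℕ} (a : ℕ) (v : V) (f : Fin n → ℕ × V) :
    monF p (Fin.cons (a, v) f) = Fock.ι _ (Finsupp.single a v) * monF p f := by
  simp [monF, List.ofFn_succ]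

theorem dv_monF {A : Module.End ℂ (ℕ →₀ V)} (hA : IsEv (p.fs ℕ) (p.fs ℕ) A) (P : ℕ → Prop)
    [DecidablePred P] (g : ℕ × V → ℕ × V)
    (h : ∀ x : ℕ × V, A (Finsupp.single x.1 x.2) =
      if P x.1 then 0 else Finsupp.single (g x).1 (g x).2) {n : ℕ} (f : Fin n → ℕ × V) :
    dv _ A (monF p f) = ∑ s, if P (f s).1 then 0 else monF p (update f s (g (f s))) := by
  induction n with
  | zero => simp [monF]
  | succ n ih =>
    obtain ⟨⟨x, f⟩, rfl⟩ := (Fin.consEquiv fun _ => ℕ × V).surjective f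
    change dv _ A (monF p (Fin.cons (x.1, x.2) f)) =
      ∑ s, if P (Fin.cons (α := fun _ => ℕ × V) x f s).1 then 0 else
        monF p (update (Fin.cons x f) s (g (Fin.cons (α := fun _ => ℕ × V) x f s)))
    rw [cons_monF, dv_ι_mul hA, ih, h, Fin.sum_univ_succ, mul_sum]
    congr 1
    · rw [Fin.cons_zero, Fin.update_cons_zero]
      split_ifs
      · rw [map_zero, zero_mul]
      · exact (cons_monF _ _ _).symm
    · refine sum_congr rfl fun s _ => ?_
      rw [Fin.cons_succ, ← Fin.cons_update]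
      split_ifs
      · rw [mul_zero]
      · exact (cons_monF _ _ _).symm

variable {ι : Type} [Fintype ι] {fr : Frame p ι} {C : Type} [CommRing C] [Algebra ℂ C]
  (ac : B.Act fr C)

theorem dv_op (r : ℕ) (y : C) {n : ℕ} (f : Fin n → ℕ × V) :
    dv _ (Frame.blk (zp ℂ V (r - 1) * cst (ac.act y))) (monF p f) = ∑ s,
      if (f s).1 + r = 0 then 0 else
        monF p (update f s ((f s).1 + r - 1, ac.act y (f s).2)) := by
  have h : ∀ a v, Frame.blk (zp ℂ V (r - 1) * cst (ac.act y)) (Finsupp.single a v) =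
      if a + r = 0 then 0 else Finsupp.single (a + r - 1) (ac.act y v) := fun a v => by
    change pos ℂ V (AlgB.op ac r y (up ℂ V _)) = _
    rw [up_single, AlgB.op_single]
    split_ifs with h0
    · exact pos_single_neg (by omega) _
    · rw [show (a : ℤ) + (r - 1) = (a + r - 1 : ℕ) by omega, pos_single_nat]
  refine dv_monF (fun v => ?_) (· + r = 0) (fun x => (x.1 + r - 1, ac.act y x.2))
    (fun x => h x.1 x.2) f
  induction v using Finsupp.induction_linear with
  | zero => simp only [map_zero]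
  | add a b ha hb => simp only [map_add, ha, hb]
  | single a v =>
    rw [Par.fs_σ_single, h, h]
    split_ifs
    · rw [map_zero]
    · rw [Par.fs_σ_single, ac.ev]

theorem tauC_monF (r : ℕ) (y : C) {n : ℕ} (f : Fin n → ℕ × V) :
    tauC ac r y * monF p f = monF p (Fin.cons (r, ac.act y fr.one) f) :=
  (cons_monF _ _ _).symm

theorem nd_monF (a a' : ℕ) (y : C) {n : ℕ} (f : Fin n → ℕ × V) :
    nd ac a a' y * monF p f =
      ∑ s, monF p (Fin.cons (a, ac.act y (fr.e s)) (Fin.cons (a', fr.f s) f)) := by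
  rw [nd, sum_mul]
  exact sum_congr rfl fun s _ => by rw [cons_monF, cons_monF, mul_assoc]

end mon

theorem thV_eq {J : Type} {r : ℕ} (y : Fin (r + 1) → J) (w : Fin (r + 1) → ℂ) (n : Fin (r + 1))
    (m : ℕ) : thV y w n m = th (univ.erase n) (fun l => w l - w n) y m := by
  refine congrArg _ (prod_congr rfl fun l _ => congrArg (PowerSeries.invOfUnit · 1) ?_)
  ext1 k
  rw [PowerSeries.coeff_rescale, cU, PowerSeries.coeff_mk, PowerSeries.coeff_mk]
  split_ifs with h
  · rw [h, pow_zero, one_mul]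
  · rw [← map_pow, Algebra.smul_def]

section nat

variable {A A' H L : Type} [CommRing A] [Algebra ℂ A] [CommRing A'] [Algebra ℂ A'] [Ring H]
  [Algebra ℂ H] {T : Finset L} {b : L → ℂ}

theorem cI_congr {u u' : L → A} (h : ∀ l ∈ T, u l = u' l) : cI T b u = cI T b u' :=
  prod_congr rfl fun l hl => by rw [h l hl]

theorem map_cI (φ : A →ₐ[ℂ] A') (u : L → A) (m : ℕ) :
    φ (PowerSeries.coeff m (cI T b u)) = PowerSeries.coeff m (cI T b fun l => φ (u l)) ∧
    φ (PowerSeries.coeff m (Ring.inverse (cI T b u))) =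
      PowerSeries.coeff m (Ring.inverse (cI T b fun l => φ (u l))) := by
  have e : ∀ l, PowerSeries.map (φ : A →+* A') (1 + PowerSeries.C (u l) * PowerSeries.X) =
      1 + PowerSeries.C (φ (u l)) * PowerSeries.X := fun l => by simp
  have h1 := map_thC T b id (c := fun l => 1 + PowerSeries.C (u l) * PowerSeries.X) φ
  have h2 := map_thC T b id
    (c := fun l => (1 + PowerSeries.C (u l) * PowerSeries.X).invOfUnit 1) φ
  simp only [Grr.map_invOfUnit_one, e] at h1 h2
  rw [thC_lin, thC_lin] at h1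
  rw [thC_inv, thC_inv] at h2
  exact ⟨congrArg (PowerSeries.coeff m) h2, congrArg (PowerSeries.coeff m) h1⟩

theorem cI_nat (φ : A →ₐ[ℂ] H) (ψ : A' →ₐ[ℂ] H) {u : L → A} {u' : L → A'}
    (h : ∀ l ∈ T, φ (u l) = ψ (u' l)) (m : ℕ) :
    φ (PowerSeries.coeff m (cI T b u)) = ψ (PowerSeries.coeff m (cI T b u')) ∧
    φ (PowerSeries.coeff m (Ring.inverse (cI T b u))) =
      ψ (PowerSeries.coeff m (Ring.inverse (cI T b u'))) := by
  classical
  let g : MvPolynomial L ℂ →ₐ[ℂ] A := MvPolynomial.aeval fun l => if l ∈ T then u l else 0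
  let g' : MvPolynomial L ℂ →ₐ[ℂ] A' := MvPolynomial.aeval fun l => if l ∈ T then u' l else 0
  have e : ∀ P, φ (g P) = ψ (g' P) := fun P => DFunLike.congr_fun
    (MvPolynomial.algHom_ext (f := φ.comp g) (g := ψ.comp g') fun l => by
      simp only [g, g', AlgHom.comp_apply, MvPolynomial.aeval_X]
      split_ifs with hl
      · exact h l hl
      · rw [map_zero, map_zero]) P
  have h1 : cI T b u = cI T b fun l => g (MvPolynomial.X l) :=
    cI_congr fun l hl => by simp only [g, MvPolynomial.aeval_X, if_pos hl]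
  have h2 : cI T b u' = cI T b fun l => g' (MvPolynomial.X l) :=
    cI_congr fun l hl => by simp only [g', MvPolynomial.aeval_X, if_pos hl]
  rw [h1, h2, ← (map_cI g _ m).1, ← (map_cI g _ m).2, ← (map_cI g' _ m).1, ← (map_cI g' _ m).2]
  exact ⟨e _, e _⟩

end nat

theorem mum_eq {A : Type} [CommRing A] [Algebra ℂ A] (a b : A) (n : ℕ) :
    PowerSeries.coeff n (Grr.mumS a b) = ∑ q ∈ antidiagonal n,
      ((-1) ^ q.1 * (bernoulli (n + 2) : ℚ) / (n + 2).factorial : ℂ) • ((-a) ^ q.1 * (-b) ^ q.2) := by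
  rw [Grr.mumS, PowerSeries.coeff_mk, smul_sum]
  refine sum_congr rfl fun q hq => ?_
  rcases Nat.even_or_odd n with h | h
  · have h1 : ((-1 : ℂ)) ^ q.1 = (-1) ^ q.2 := by
      rw [← mem_antidiagonal.1 hq, Nat.even_add] at h
      rcases Nat.even_or_odd q.1 with h' | h'
      · rw [h'.neg_one_pow, (h.1 h').neg_one_pow]
      · rw [h'.neg_one_pow, (Nat.not_even_iff_odd.1 fun h2 =>
          Nat.not_even_iff_odd.2 h' (h.2 h2)).neg_one_pow]
    have h2 : (-b) ^ q.2 = ((-1 : ℂ)) ^ q.2 • b ^ q.2 := by rw [← smul_pow, neg_one_smul]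
    have h3 : ((-1 : ℂ)) ^ q.2 * (-1) ^ q.2 = 1 := by rw [← mul_pow]; simp
    rw [h2, mul_smul_comm, smul_smul, h1]
    congr 1
    linear_combination -(((bernoulli (n + 2) : ℚ) : ℂ) / (n + 2).factorial) * h3
  · rw [bernoulli_eq_zero_of_odd (h.add_even even_two) (by omega)]
    simp

end Asm

end Vale.Agent.P269.Qrr
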