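import Vale.Agent.P287Q.G.Qrr.Bas
import Vale.Agent.P287Q.G.Qrr.MainA

/-!
# Quantum Riemann-Roch: the Riemann-Roch formula for correlators
-/

set_option linter.unusedSectionVars false

namespace Vale.Agent.P269.Qrr.Asm

open P291Z Function Filter Fock Finset

theorem lin_grr {M α : Type} [AddCommGroup M] [Module ℂ M] [Fintype α] (φ : M →ₗ[ℂ] ℂ)
    {s t : Finset (ℕ × ℕ)} {x : M} {c c' : ℕ × ℕ → ℂ} {A N : ℕ × ℕ → M} {B : ℕ × ℕ → α → M}
    (h : x = ∑ q ∈ s, c q • (A q - if q.1 = 0 then 0 else ∑ a, B q a) + ∑ q ∈ t, c' q • N q) :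
    φ x = ∑ q ∈ s, c q * (φ (A q) - if q.1 = 0 then 0 else ∑ a, φ (B q a)) +
      ∑ q ∈ t, c' q * φ (N q) := by
  simp only [h, map_add, map_sum, map_smul, map_sub, apply_ite φ, map_zero, smul_eq_mul]

theorem sum_mk {n : ℕ} (g : Ch.Mk (Fin n ⊕ Fin 0) (Fin 0) → ℂ) : ∑ a, g a = ∑ s, g (mk0 s) := by
  simp [Fintype.sum_sum_type]

variable {Λ R J K : Type} [Fintype Λ] [Fintype R] [Fintype J] [Fintype K] [DecidableEq R]
  {F : Fam Empty Λ R J K} {k : ℕ}

/-- The integral as a linear form in the class. -/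
noncomputable def inL {ν κ : Type} [Fintype ν] [Fintype κ] {D : ℕ} {g : ℤ} {d : R → ℤ}
    {u : ν → J → ℕ} (fs : List (Fac F.toWt ν κ)) : BM (F.Mod κ k D g d u) →ₗ[ℂ] ℂ where
  toFun v := F.intg v (fun _ => True) fs
  map_add' _ _ := by simp only [Fam.intg, ev_eq, LinearMap.add_apply]
  map_smul' _ _ := by simp only [Fam.intg, ev_eq, LinearMap.smul_apply, RingHom.id_apply]

theorem top_ev (hW : St.Well) (h : F.One k) (Θ) (d : R → ℤ) (j : ℤ) {n : ℕ}
    (f : Fin n → ℕ × H (F.X F.cone)) : ∀ᶠ D in atTop, F.corP k (fun _ => True) Θ d j f =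
      F.intg (F.vir (Fin 0) k D (j + 1) d 0) (fun _ => True) (F.fsF _ Θ f) :=
  h.corP_ev hW Fam.Sel.top Θ f

theorem corP_lin (hF : St.FacQ) (hW : St.Well) (h : F.One k) (d : R → ℤ) (j : ℤ) {n : ℕ}
    (f : Fin n → ℕ × H (F.X F.cone)) : ∃ L : MvPolynomial (J × ℕ) ℂ →ₗ[ℂ] ℂ,
      ∀ Θ, F.corP k (fun _ => True) Θ d j f = L Θ := by
  have key : ∀ Θ Θ' (z : ℂ), F.corP k (fun _ => True) (z • Θ + Θ') d j f =
      z * F.corP k (fun _ => True) Θ d j f + F.corP k (fun _ => True) Θ' d j f := fun Θ Θ' z => by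
    obtain ⟨D, h1, h2, h3, h4⟩ := ((hF F k d j (n := n) h).and
      ((top_ev hW h (z • Θ + Θ') d j f).and ((top_ev hW h Θ d j f).and
        (top_ev hW h Θ' d j f)))).exists
    rw [h2, h3, h4]
    exact (h1 _ f).1 Θ Θ' z
  have h0 : F.corP k (fun _ => True) 0 d j f = 0 := by
    have := key 0 0 1
    rw [smul_zero, add_zero, one_mul] at this
    exact left_eq_add.1 this
  exact ⟨⟨⟨fun Θ => F.corP k (fun _ => True) Θ d j f, fun a b => by
    simpa only [one_smul, one_mul] using key a b 1⟩, fun z a => by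
    simpa only [add_zero, h0, RingHom.id_apply, smul_eq_mul] using key a 0 z⟩, fun _ => rfl⟩

theorem grr (hQ : St.QC) (hU : St.UcP) (hN : St.NdQ) (hF : St.FacQ) (hW : St.Well) (h : F.One k)
    {u : J → Ch.Hev (F.X F.cone)} (hu : ∀ j, (u j).1 = F.lc _ 0 (F.w j)) {B : Type} [Fintype B]
    {e e' : B → H (F.X F.cone)} (he : F.IsCas e e') {Θ} {β : Type} {T : Finset β} {Θ₁ Θ₂}
    (hΘ : Cop Θ T Θ₁ Θ₂) (d : R → ℤ) (j : ℤ) {n : ℕ} (f : Fin n → ℕ × H (F.X F.cone)) (x : J)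
    {c} (hx : F.lc _ 0 (F.w x) = c) (m : ℕ) :
    F.corP k (fun _ => True) (PowerSeries.coeff (m + 1) (chT (cU x)) * Θ) d j f =
      ∑ q ∈ antidiagonal (m + 2), (bernoulli q.1 : ℚ) / (q.1.factorial * q.2.factorial) *
        (F.corP k (fun m => ¬m.Un F.θ (mk0 0)) Θ d j (Fin.cons (q.1, c ^ q.2) f) -
          ∑ s, if (f s).1 + q.1 = 0 then 0 else F.corP k (fun _ => True) Θ d j
            (update f s ((f s).1 + q.1 - 1, c ^ q.2 * (f s).2))) +
      1 / 2 * ∑ q ∈ antidiagonal m, ∑ a ∈ antidiagonal q.1,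
        (-1) ^ a.1 * (bernoulli (q.1 + 2) : ℚ) / ((q.1 + 2).factorial * q.2.factorial) *
          ∑ t ∈ T, ∑ b, F.corP k (fun _ => True) (Θ₁ t) d (j - 1)
            (Fin.cons (a.1, c ^ q.2 * (evC (fun j =>
              (1 + PowerSeries.C (u j) * PowerSeries.X).invOfUnit 1) (Θ₂ t)).1 * e b)
              (Fin.cons (a.2, e' b) f)) := by
  have hc : ∀ p : ℕ, c ^ p ∈ Ch.Hev _ := fun p => pow_mem (hx ▸ hu x ▸ (u x).2) p
  obtain rfl : F.lc _ (F.wt x) (F.w x) = c := by rw [← hx, Subsingleton.elim (F.wt x) 0]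
  obtain ⟨D, ⟨Φ, hΦ, h1⟩, h2, h3, h4, h5, h6⟩ := ((hQ (ν := Fin n ⊕ Fin 0) F k (j + 1) d h).and
    ((hF F k d j (n := n) h).and
    ((top_ev hW h (PowerSeries.coeff (m + 1) (chT (cU x)) * Θ) d j f).and
    (((eventually_all_finset (antidiagonal (m + 2))).2 fun q _ =>
      hU F k Θ d j f q.1 _ h (hc q.2)).and
    (((eventually_all_finset (antidiagonal (m + 2))).2 fun q _ => eventually_all.2 fun s =>
      top_ev hW h Θ d j (update f s
        ((f s).1 + (q.1 - 1), F.lc _ (F.wt x) (F.w x) ^ q.2 * (f s).2))).and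
    ((eventually_all_finset (antidiagonal m)).2 fun q _ =>
      hN F k u e e' Θ T Θ₁ Θ₂ h hu he hΘ d j f _ (antidiagonal q.1)
        (fun a => (-1) ^ a.1 * (bernoulli (q.1 + 2) : ℚ) / (q.1 + 2).factorial)
        (hc q.2))))))).exists
  have h7 := lin_grr (inL (F.fsF _ Θ f)) (h1 x m)
  rw [h3, (h2 _ f).2.1, evC_chT (h2 0 f).2.2.1]
  refine h7.trans (congrArg₂ _ (sum_congr rfl fun q hq => congrArg _ ?_) ?_)
  · refine (congrArg₂ _ (h4 q hq) (if_congr Iff.rfl rfl ((sum_mk _).trans (sum_congr rfl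
      fun s _ => (((h2 _ f).2.2.2 Θ s _ _ (hc q.2)).symm.trans (h5 q hq s).symm))))).trans ?_
    rw [sub_sub]
    congr 1
    split_ifs with h0
    · simp only [h0, add_zero]
    · rw [zero_add]
      refine sum_congr rfl fun s _ => ?_
      rw [if_neg (by omega), show (f s).1 + (q.1 - 1) = (f s).1 + q.1 - 1 by omega]
  · rw [mul_sum]
    refine sum_congr rfl fun q hq => ?_
    have h8 := h6 q hq (Φ q.1) fun T _ g a b hg => (hΦ q.1 T g a b hg).trans (mum_eq a b _)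
    refine (congrArg _ ((eq_div_iff_mul_eq two_ne_zero).2 ((mul_comm _ _).trans h8))).trans ?_
    rw [sum_div, mul_sum, mul_sum]
    refine sum_congr rfl fun a _ => ?_
    ring

end Vale.Agent.P269.Qrr.Asm
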