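import Vale.Agent.P287Q.G.Qrr.Dom
import Vale.Agent.P287Q.G.WK.Dil
import Vale.Agent.P287Q.G.Map.Ind

/-!
# Grothendieck-Riemann-Roch against the virtual class
-/

set_option linter.unusedSectionVars false

namespace Vale.Agent.P269

open P291Z Set Function Topology Filter Module Holo PowerSeries

variable {S Λ R J K ν κ ι : Type} [Fintype S] [Fintype Λ] [Fintype R] [Fintype J] [Fintype K]
  [Fintype ν] [Fintype κ] [Fintype ι] [DecidableEq ι]

namespace Ch

variable {ch : Ch ι J} {F : Fam S Λ R J K} {e : K → ι → ℕ} {ℓ : R → ι → ℤ}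
  {Z S₀ O : Set (ch.WF ν κ Λ)} {d n r : ℕ}

namespace GZ

variable (h : GZ F ℓ Z)
include h

theorem eqh_unv : Tq.Eqh (actC F.toWt) F.actT (unv Z) F.cone
    (fun s => (s.1.1, fun r => ∏ i, s.2 i ^ ℓ r i)) fun x => (x.1.1, Ch.fld x.1.2 x.2) := by
  have a : ∀ x ∈ unv Z, _ := fun x hx => (mem_solF.1 (h.sol hx.1)).2 _ hx.2
  refine ⟨⟨Prod.ext rfl (funext fun r => (hm_chC (ℓ r)).one), fun s t b c =>
    Prod.ext rfl (funext fun r => (hm_chC (ℓ r)).mul s t b c), fun s hs =>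
      continuousAt_fst.fst.prodMk (continuousAt_pi.2 fun r => (hm_chC (ℓ r)).cont s hs)⟩,
    (DilA.eqv_unv h).maps, (DilA.eqv_unv h).cont, fun s hs x hx => Prod.ext rfl (funext fun j => ?_)⟩
  obtain ⟨h1, h2⟩ := isUnitU_iff.1 hs
  refine (Cv.fld_eq (actC_mem_crv hs hx.2) (((val_fld ((a x hx).1 j)).actF h1).smul h2)).trans ?_
  rw [← mul_assoc, mul_comm (∏ i, s.2 i ^ ch.wd j i)]
  refine congrArg (fun z => _ * z * _) ?_
  simp only [h.wt, ← Finset.prod_zpow, ← zpow_mul, zpow_sum_ne (h2 _), mul_comm]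
  exact Finset.prod_comm

theorem eC_lc [Mono.FP F.actT F.cone] (j : J) :
    eC F Z (F.lc _ (F.wt j) (F.w j)) = Grr.lC F.toWt Z j := by
  have := h.act
  rw [DilA.eC_eq h]
  refine h.eqh_unv.map_lcqO (h.cuts.orb_unv h.base h.orb) (Tq.orb _ _) (hm_chT (F.wt j) (F.w j))
    (c' := fun s => (∏ i, s.1.1 i ^ F.wt j i) * ∏ i, s.2 i ^ ch.wd j i)
    fun s hs => congrArg (_ * ·) ?_
  simp only [h.wt, ← Finset.prod_zpow, ← zpow_mul, zpow_sum_ne ((isUnitU_iff.1 hs).2 _), mul_comm]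
  exact Finset.prod_comm

theorem eC_pow (c : H (F.X F.cone)) (m : ℕ) : eC F Z (c ^ m) = eC F Z c ^ m := by
  rw [DilA.eC_eq h, DilA.eC_eq h, map_pow]

theorem secC_eC (a : Mk ν κ) (c : H (F.X F.cone)) :
    H.map ⟨secC F.toWt h.base a, continuous_secC _ a⟩ (eC F Z c) = hcls (evF a F.cone (rep c)) := by
  rw [DilA.eC_eq h, h.hcls_evF, H.map_map]
  exact congrArg (H.map · c) (ContinuousMap.ext fun z => Quot.inductionOn z fun _ => rfl)

end GZ

namespace SDm

variable (h : SDm F e ℓ S₀ O d n r)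
include h

theorem indC_res (j : J) : indC F.toWt _ j = Grr.pS h.rF (indC F.toWt O j) :=
  haveI := h.gd.dom.isAct
  haveI := h.gd.isActZ
  indC_same h.gd.dom.orb h.num.cuts h.base h.gd.orbZ h.gz.base _ (fun _ _ => rfl) rfl

theorem psiF_res (a : Mk ν κ) : hcls (psiF a) = H.map h.rF (hcls (psiF a)) :=
  haveI := h.gd.dom.isAct
  haveI := h.gd.isActZ
  (psiF_same h.gd.dom.orb h.num.cuts h.base h.gd.orbZ h.gz.base _ (fun _ _ => ⟨rfl, rfl⟩) a).trans
    (H.map_hcls _ (psiF_cocycle h.gd.dom.orb h.num.cuts h.base a)).symm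

theorem secC_res (a : Mk ν κ) (c : H (Quo (actC F.toWt) (unv O))) :
    H.map h.rF (hpull (secC F.toWt h.base a) c) =
      H.map ⟨secC F.toWt h.gz.base a, continuous_secC _ a⟩ (H.map h.rC c) := by
  rw [show hpull (secC _ h.base a) c = _ from Tq.hpull_eq ⟨_, continuous_secC h.base a⟩ c,
    H.map_map, H.map_map]
  exact congrArg (H.map · c) (ContinuousMap.ext fun z => Quot.inductionOn z fun _ => rfl)

theorem inN_res (c : H (Quo (actC F.toWt) (unv O))) :
    H.map h.rN (hpull (inN F.toWt O) c) = hpull (inN F.toWt _) (H.map h.rC c) := by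
  rw [show hpull (inN _ O) c = _ from Tq.hpull_eq ⟨_, continuous_inN⟩ c,
    show hpull (inN _ _) (H.map h.rC c) = _ from Tq.hpull_eq ⟨_, continuous_inN⟩ _, H.map_map, H.map_map]
  exact congrArg (H.map · c) (ContinuousMap.ext fun z => Quot.inductionOn z fun _ => rfl)

theorem roots_res {c : Hev (Quo (actC F.toWt) (nod O))} {P} (hc : Roots F.toWt O c P) :
    Roots F.toWt _ (Hev.map h.rN c) P := fun T _ f a b k => by
  have := h.gdN.dom.isAct
  have := h.gdN.isActZ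
  rw [Hev.map_map]
  refine hc T _ a b ?_
  rw [← Grr.pS_pS, ← k, ((h.num.cuts.okT h.base).res_incl h.gdN.dom.orb h.gdN.orbZ h.gdN.dom.sub).2]
  rfl

/-- **Grothendieck-Riemann-Roch** against the virtual class -/
theorem qc [Mono.FP F.actT F.cone] (hb : ∀ j, ch.b j ch.o ≠ 0) : QC F e S₀ := by
  have := h.gd.dom.isAct
  obtain ⟨Φ, h1, h2⟩ := Grr.grrD h.gd.dom.orb h.mf h.num h.ver hb
  refine ⟨fun m => Hev.map h.rN (Φ m), fun m => h.roots_res (h1 m), fun j m => ?_⟩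
  have e1 : ∀ q : ℕ, eC F _ (F.lc _ (F.wt j) (F.w j) ^ q) = H.map h.rC (Grr.lC F.toWt O j ^ q) :=
    fun q => by rw [h.gz.eC_pow, h.gz.eC_lc, map_pow, h.lC_res]
  rw [h.indC_res, ← Qrr.map_chT, coeff_map]
  refine (h.cap_res _).trans ((congrArg h.vr (h2 j m)).trans ?_)
  rw [map_add, map_sum, map_sum]
  refine congrArg₂ _ (Finset.sum_congr rfl fun q _ => ?_) (Finset.sum_congr rfl fun q _ => ?_)
  · rw [map_smul, map_sub, e1, ← h.oC_res, ← H.map_smulC, ← map_pow, ← map_mul, h.pshC_res]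
    refine congrArg (_ • ·) (congrArg₂ _ rfl ?_)
    split_ifs
    · exact map_zero _
    rw [map_sum]
    refine Finset.sum_congr rfl fun a _ => ?_
    rw [← h.gz.secC_eC, e1, ← h.secC_res, h.psiF_res, ← map_pow, ← map_mul, h.cap_res]
    rfl
  · rw [map_smul, e1, ← h.inN_res, Hev.coe_map, ← map_mul, h.pshN_res]
    rfl

end SDm

end Ch

theorem St.qc : St.QC := fun _ _ g d h =>
  haveI := h.nice.toGood.fp
  (h.nice.sdm h.abs h.big g d).mono fun _ ⟨_, _, _, _, _, a⟩ => a.qc fun _ =>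
    (Nat.add_comm _ _).trans_ne (Nat.succ_ne_zero _)

end Vale.Agent.P269
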