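import Vale.Agent.P287Q.G.Qrr.Nod
import Vale.Agent.P287Q.G.Glu.GC
import Vale.Agent.P287Q.G.Glu.NdDefs
import Vale.Agent.P287Q.G.Spl.Num

/-!
# The nodes of the universal curve and labelled normalisations: definitions
-/

set_option linter.unusedSectionVars false

namespace Vale.Agent.P269

open P291Z Set Function Topology Filter PowerSeries

/-- `f : O' → O` is a double covering of orbifolds with deck transformation `τ`. -/
structure Dbl {A A' W W' : Type} [NormedRing A] [NormedAlgebra ℂ A] [NormedAddCommGroup W]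
    [NormedSpace ℂ W] [NormedRing A'] [NormedAlgebra ℂ A'] [NormedAddCommGroup W']
    [NormedSpace ℂ W'] (act' : A' → W' → W') (act : A → W → W) (O' : Set W') (O : Set W)
    (θ : CL A' A) (f : W' → W) (τ : W' → W') : Prop extends Ch.EqM act' act O' O θ f where
  usurj : ∀ b, IsUnit b → ∃ a, IsUnit a ∧ θ a = b
  an : ∀ z ∈ O', AnalyticAt ℂ f z
  anτ : ∀ z ∈ O', AnalyticAt ℂ τ z
  memτ : MapsTo τ O' O'
  ττ : ∀ z ∈ O', τ (τ z) = z
  fτ : ∀ z ∈ O', f (τ z) = f z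
  surj : SurjOn f O' O
  fib : ∀ z ∈ O', ∀ z' ∈ O', f z = f z' → ∃ a, IsUnit a ∧ (act' a z = z' ∨ act' a z = τ z')
  free : ∀ z ∈ O', ∀ a, IsUnit a → θ a = 1 → (act' a z = z → a = 1) ∧ act' a z ≠ τ z
  sec : ∀ z ∈ O', ∃ σ, AnalyticAt ℂ σ (f z) ∧ σ (f z) = z ∧
    ∀ᶠ y in 𝓝[O] (f z), σ y ∈ O' ∧ f (σ y) = y

variable {S Λ R J K ι ν κ ε : Type} [Fintype S] [Fintype Λ] [Fintype R] [Fintype J] [Fintype K]
  [Fintype ι] [DecidableEq ι] [Fintype ν] [Fintype κ] [Fintype ε]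

namespace Ch

variable {ch : Ch ι J} {n : Nm ι J}

/-- The labelled node as a point of the universal curve. -/
noncomputable def ηN (z : ch.WG n ν κ Unit Λ) : ch.WC ν κ Λ :=
  (z.1, apV z.2.2.1 (z.2.1.p (nq () false)))

/-- The group element acting on the labelled node. -/
noncomputable def θN : CL (ch.AG n ν κ Unit S) (ch.AU ν κ S) :=
  CL.mk (fun a => (a.1, a.2.2.2 ())) (fun _ _ => rfl) fun _ _ => rfl

theorem θN_apply (a : ch.AG n ν κ Unit S) : θN a = (a.1, a.2.2.2 ()) := rfl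

/-- The exchange of the branches of the labelled nodes. -/
def swq : Mk ν (κ ⊕ ε) → Mk ν (κ ⊕ ε) :=
  Sum.map id fun q => (q.1, q.1.elim (fun _ => q.2) fun _ => !q.2)

theorem swq_inc (a : Mk ν κ) : swq (inc a : Mk ν (κ ⊕ ε)) = inc a := by
  rcases a with _ | _ <;> rfl

theorem swq_nq (e : ε) (b : Bool) : swq (nq e b : Mk ν (κ ⊕ ε)) = nq e (!b) := rfl

theorem swq_swq (q : Mk ν (κ ⊕ ε)) : swq (swq q) = q := by
  rcases q with _ | ⟨_ | _, _ | _⟩ <;> rfl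

/-- The label with exchanged branches. -/
noncomputable def swl (w : ch.Lb n (Mk ν (κ ⊕ ε))) : ch.Lb n (Mk ν (κ ⊕ ε)) :=
  (W.mk' w.1.Q (fun q => w.1.p (swq q)) w.1.Ξ w.1.X, w.2)

/-- The exchange of the branches. -/
noncomputable def swp (z : ch.WG n ν κ ε Λ) : ch.WG n ν κ ε Λ := (z.1, swl z.2)

/-- The frames of the normalised chart in the group of the labelled space. -/
noncomputable def ιN (a : (ch.re n).A Empty) : ch.AG n ν κ ε S := (1, a.1, a.2.1, 1)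

/-- The action of the frames of the normalised chart. -/
noncomputable def actN (Wg : Wt S Λ R J) (a : (ch.re n).A Empty) (z : ch.WG n ν κ ε Λ) :
    ch.WG n ν κ ε Λ := actG Wg (ιN a) z

variable (ch n) in
/-- The labelled points over `O`. -/
def OL (F : Fam S Λ R J K) (O : Set (ch.WF ν κ Λ)) : Set (ch.WG n ν κ Unit Λ) :=
  Zf F ((ch.re n).adm ν (κ ⊕ Unit) F) ∩ Prod.fst ⁻¹' O

variable (ch n) in
/-- The hypotheses for the comparison of the labelled space with the nodes. -/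
structure NC (F : Fam S Λ R J K) (e : K → ι → ℕ) (K₀ : RD R) (ℓ : R → ι → ℤ)
    (P : Set (ch.WF ν κ Λ)) (V : Set ((ch.re n).WF ν (κ ⊕ Unit) Λ)) (N₀ N : ℕ) : Prop where
  abs : F.Abs
  gh : ch.GH n F e K₀ ℓ ((ch.re n).adm ν (κ ⊕ Unit) F ∩ V) ((ch.re n).adm ν (κ ⊕ Unit) F ∩ V) N
  opnV : IsOpen V
  solV : (ch.re n).solF ν (κ ⊕ Unit) F ⊆ V
  pr : Pr F P
  cut : ∀ x ∈ nod (ch.adm ν κ F ∩ P), ∃ z ∈ ch.OL n F univ, ηN z = x
  loc : ∀ z ∈ ch.OL n F P, μG z ∈ V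
  mfd : ∀ x ∈ ch.adm ν κ F, Holo.MfdAt (ch.adm ν κ F) N₀ x
  dim : (ch.OL n F P).Nonempty → N₀ + Module.finrank ℂ ((ch.re n).AF ν (κ ⊕ Unit) S) +
    Module.finrank ℂ ((ch.re n).Fm F.mov (ch.re n).hf) =
      N + Module.finrank ℂ (ch.AF ν κ S) + Module.finrank ℂ (ch.Fm F.mov ch.hf) + 1

variable (F : Fam S Λ R J K) (e : K → ι → ℕ) (T₀ : Set (ch.WF ν κ Λ))
  (T : Set ((ch.re n).WF ν (κ ⊕ Unit) Λ))

/-- The normalisation map on the labelled solutions. -/
abbrev EΦ : Prop := EqM (actG F.toWt : ch.AG n ν κ Unit S → ch.WG n ν κ Unit Λ → _) (actF F.toWt)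
  (ZL F T) ((ch.re n).solF ν (κ ⊕ Unit) F ∩ T) θG (lf F)

/-- The gluing map on the labelled solutions. -/
abbrev EΨ : Prop := EqM (actG F.toWt : ch.AG n ν κ Unit S → ch.WG n ν κ Unit Λ → _) (actF F.toWt)
  (ZL F T) (ch.solF ν κ F ∩ T₀) (fun a => a.1) Prod.fst

/-- The map from the labelled solutions to the nodes of the universal curve. -/
abbrev Eη : Prop := EqM (actG F.toWt : ch.AG n ν κ Unit S → ch.WG n ν κ Unit Λ → _) (actC F.toWt)
  (ZL F T) (nod (ch.solF ν κ F ∩ T₀)) θN ηN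

/-- **The labelled solutions are a double covering of the nodes.** -/
def NdP : Prop :=
  ∃ (_ : Nice (ModS F T)) (_ : Holo.IsAct (actG F.toWt : ch.AG n ν κ Unit S → _) (ZL F T))
    (_ : EΨ F T₀ T) (h : EΦ (ch := ch) F T) (h' : Eη F T₀ T),
    Orb.Orb (ch.AG n ν κ Unit S)ˣ (Holo.Sp (actG F.toWt) (ZL F T)) ∧ IsClosedEmbedding h.map ∧
    diq F.toWt _ (.inr ()) ⊆ range h.map ∧ IsPr h'.map ∧
    push h'.map (gys h.map (F.coch _ (.dg (.inr ()))) (virF F e T)) = (2 : ℂ) • virN F e T₀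

end Ch

namespace St

/-- **Nodes** in the absolute theory: a persistent node is replaced by two marked points. -/
def NDq : Prop :=
  ∀ {Λ R J K ν β : Type} [Fintype Λ] [Fintype R] [Fintype J] [Fintype K] [Fintype ν] [Fintype β]
    [DecidableEq R] (F : Fam Empty Λ R J K) (k : ℕ) (g : ℤ) (d : R → ℤ)
    (a a' : β → H (F.X F.cone)) (fs : List (Fac F.toWt (ν ⊕ Unit × Bool) (Fin 0))),
    F.One k → F.IsCas a a' → (∀ f ∈ fs, f.Ok F 0) →
    ∀ᶠ D in atTop, F.intM k D g d 0 (.dg (.inr ()) :: fs.map (Fac.un Unit)) =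
      ∑ b, F.intM k D g d 0 (.ev (.inl (.inr ((), false))) _ (a b) ::
        .ev (.inl (.inr ((), true))) _ (a' b) :: fs)

end St

end Vale.Agent.P269
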