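import Vale.Agent.P287Q.G.Qrr.NdD
import Vale.Agent.P287Q.G.Glu.Std
import Vale.Agent.P287Q.G.Fg.PtB
import Vale.Agent.P287Q.G.Vir.Std

/-!
# Labels of nodes in the standard charts
-/

set_option linter.unusedSectionVars false

namespace Vale.Agent.P269

open P291Z Set Function Topology Filter Base Cv Holo

variable {S Λ R J K ν κ : Type} [Fintype S] [Fintype Λ] [Fintype R] [Fintype J] [Fintype K]
  [Fintype ν] [Fintype κ] {F : Fam S Λ R J K} {k D b : ℕ} {K₀ : RD R}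

section chart

variable {ι : Type} [Fintype ι] [DecidableEq ι] {ch : Ch ι J}

theorem NdL.main_eq (hA : F.Abs) : ch.main κ F (0 : ν → J → ℕ) = ch.adm ν κ F :=
  Set.ext fun _ => and_iff_left fun _ c e => (e (hA.1 c)).elim

open Classical in
theorem Fam.Abs.cyc_eq (hA : F.Abs) (hF : F.Inv) :
    ch.cyc κ F (0 : ν → J → ℕ) = ch.adm ν κ F := Set.ext fun _ =>
  ⟨fun h => let ⟨a, b⟩ := (hA.mem_cyc hF).1 h
    ⟨a, fun j hj _ _ => ⟨0, fun _ _ _ => by simp [b j hj]⟩, fun _ _ => hA.2 ▸ mem_univ _,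
      fun j hj => b j (disjoint_left.1 hF.zer_base hj), fun j hj _ => by
        rw [Ch.fld_of_zero (a.2.1.2.2.2.1 _).1 (b j hj),
          Ch.fld_of_zero (a.2.1.2.2.2.1 _).1 (b j hj)]⟩,
    fun h => (hA.mem_cyc hF).2 ⟨h.1, fun j hj => h.2.2.2.1 j (hA.1 hj)⟩⟩

theorem Ch.Num₀.mfd_adm (h : Ch.Num₀ ch) (hA : F.Abs) (hF : F.Inv) (hB : F.Sm b) {x : ch.WF ν κ Λ}
    (hx : x ∈ ch.adm ν κ F) : ((ch.dimM ν κ F b 0).toNat : ℤ) = ch.dimM ν κ F b 0 ∧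
      MfdAt (ch.adm ν κ F) (ch.dimM ν κ F b 0).toNat x := by
  have hG : Ch.Gr ch F (0 : ν → J → ℕ) (Fin.elim0 : Fin 0 → J) (fun _ => 0) fun _ _ => 1 :=
    ⟨hF.zer_base, fun i => i.elim0, linearIndependent_unique_iff.2 fun e => h.chi (by
      simp [show ch.χ = 0 from e]), fun _ i => i.elim0,
      fun _ _ _ => ⟨analyticAt_const, one_ne_zero⟩, fun _ c e => (e (hA.1 c)).elim,
      fun _ c e => (e (hA.1 c)).elim, fun _ _ _ _ _ =>
        iff_of_true (hA.2 ▸ mem_univ _) fun _ c e => (e (hA.1 c)).elim⟩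
  have := h.mfd_main hB hG ((NdL.main_eq hA).ge hx)
  rwa [NdL.main_eq hA, Fintype.card_fin] at this

theorem NdL.dimM_eq : ch.dimM ν κ F b 0 = b - Fintype.card S + Module.finrank ℂ (ch.AF ν κ S) +
    Module.finrank ℂ (ch.Fm F.mov ch.hf) + (3 * ch.g - 3 + Fintype.card ν + 2 * Fintype.card κ +
      (Fintype.card ι - 1) * (ch.g - 1 + Fintype.card κ)) := by
  classical
  have d := Finset.sum_filter_add_sum_filter_not Finset.univ (· ∈ F.mov)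
    fun j => (Module.finrank ℂ (ch.Th j) * ch.h (some j) : ℤ)
  rw [Ch.dimM, Ch.dimB, Ch.finrank_AF, Ch.finrank_A, Fam.fm_eqS, Ch.fm]
  simp only [Fintype.card_sum, Fintype.card_prod, Fintype.card_bool]
  push_cast
  linear_combination -d

theorem NdL.pr_inter {U V : Set (ch.WF ν κ Λ)} (h : Ch.Pr F U) (o : IsOpen V)
    (i : Ivt (Ch.actF F.toWt) V) (s : ch.solF ν κ F ⊆ V) : Ch.Pr F (U ∩ V) :=
  ⟨h.opn.inter o, fun a b x c => ⟨h.inv a b x c.1, i a b x c.2⟩, subset_inter h.sol s,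
    h.prp.mono fun _ a => ⟨a.1, a.2.1⟩, fun y a => h.den y ⟨a.1, a.2.1⟩⟩

/-- every node has a label -/
theorem NdL.exists_lab {n : Nm ι J} {ℓ : R → ι → ℤ} (hF : F.Inv) (hl : ch.Lat F.toWt ℓ)
    (hn : ch.GN n Unit) {x : ch.WF ν κ Λ} (hx : x ∈ ch.adm ν κ F) (lab : Ch.Lab Unit n x.2)
    {c : V ch.M} (hc : c ∈ Ch.crv x.2) (hc' : IsNode ch.o (Ch.crv x.2) c) :
    ∃ z ∈ ch.OL n F univ, Ch.ηN z = (x, c) := by
  obtain ⟨m, r⟩ := hl.exists_rep_adm hx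
  obtain ⟨B, π, u, s, d⟩ := r.exists_data hx.1.2.1
  obtain ⟨y, t, ht, rfl⟩ := (d.cr.par.img c).1 hc
  obtain ⟨y', j⟩ := not_forall_not.1 (mt sm_iff.2 ((d.cr.par.isNode_iff ht).1 hc'))
  have ne : y ≠ y' := fun e => j.elim (fun a => d.cr.par.nd.ne _ a _ a e)
    fun a => d.cr.par.nd.ne _ a _ a e.symm
  obtain ⟨w, hw, δ, -, a, τ, φ, -, -, h0, h1, -, h2⟩ : ∃ w : ch.Lb n (Ch.Mk ν (κ ⊕ Unit)),
      (x, w) ∈ Ch.Zf F ((ch.re n).adm ν _ F) ∧ _ :=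
    (d.exists_lbl (v := fun q => cond q.2 y' y) hF hl hn hx ⟨by
      rintro ⟨_, _ | _⟩ ⟨_, _ | _⟩ e
      exacts [rfl, (ne e).elim, (ne e.symm).elim, rfl], fun _ => j⟩ lab).imp
      fun _ a => ⟨a.1, a.2 () false⟩
  have e : π y = τ 0 • apV w.2.1 (w.1.p (Ch.nq () false)) := by
    have := h2.self_of_nhds
    rw [h1] at this
    exact (br_zero (A := B) y).symm.trans (a ▸ this)
  let g : ch.AG n ν κ Unit S := (1, 1, 1, fun _ => t * τ 0)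
  have hg : IsUnit g := AP.isUnit_iff.2 ⟨isUnit_one, Cv.isUnit_iff.2
    ⟨fun _ => isUnit_one, fun _ => isUnit_one, fun _ i => mul_ne_zero (ht i) (h0 i)⟩⟩
  refine ⟨_, ⟨Ch.ivt_Zf (Ch.lev_adm hF).inv g hg _ hw, trivial⟩,
    Prod.ext (Ch.actF_one x) (funext fun i => ?_)⟩
  rw [e, ← mul_smul]
  exact (map_smul _ _ _).trans (congrArg _
    (Ch.actLb_V (c := 1) (Ch.isUnit_dupF (Ch.isUnit_θG hg)) i _))

end chart

/-- **the hypotheses hold in the standard charts** -/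
theorem Fam.Good.exists_nc [DecidableEq R] (hF : F.Good) (hA : F.Abs) (hR : F.Reg K₀) (hB : F.Sm b)
    (hk : F.Big k) (hD : F.BigD k D) (g : ℤ) (d : R → ℤ) :
    ∃ (P : Set ((F.sch ν κ k D (g + 1) d).WF ν κ Λ)) (V : _) (N₀ N : ℕ),
      (F.sch ν κ k D (g + 1) d).NC (F.nms ν (κ ⊕ Unit) k D g d) F
        (F.tdeg (F.sch ν κ k D (g + 1) d)) K₀ ℓs P V N₀ N := by
  have hg : g + Fintype.card Unit = g + 1 := rfl
  have hn := Fam.gn (ν := ν) (κ := κ) (d := d) hk hD hg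
  obtain ⟨U, hU⟩ := hF.exists_pr (ν := ν) (κ := κ) hk hD (g + 1) d
  have lT := (Ch.lev_adm hF.toInv).interS (Fam.ivt_posG (F := F) (ν := ν) (κ := κ ⊕ Unit) (k := k)
    (D := D) (g := g) (d := d)) (Fam.stb_posG _)
  refine ⟨U ∩ F.posG ν κ k D (g + 1) d, F.posG ν (κ ⊕ Unit) k D g d, _, _, hA,
    ⟨Fam.chart_std hF hR hD, hn, lT, lT, (pcy_self fun x hx =>
      (hn.num'.mfd_adm hA hF.toInv hB hx).2).inter Fam.isOpen_posG, hF.exists_pr hk hD g d,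
      Fam.sur_posG hk hD hg hF.toInv (by exact Subset.rfl)⟩, Fam.isOpen_posG, Fam.sol_posG hF.toInv hk hD,
    NdL.pr_inter hU Fam.isOpen_posG Fam.ivt_posG (Fam.sol_posG hF.toInv hk hD),
    fun x hx => NdL.exists_lab hF.toInv (Fam.chart_lat hD) hn hx.1.1.1
      (Fam.lab_posG hk hD hg hx.1.1.2.2 ⟨trivial, hx.1.1.1.1.2⟩) hx.1.2 hx.2, fun z hz => ?_,
    fun x hx => (hn.num.mfd_adm hA hF.toInv hB hx).2, fun ⟨z, hz⟩ => ?_⟩
  · obtain ⟨m, r⟩ := (Fam.chart_lat hD).exists_rep (A := ∅) hz.1.1.2.1.1 fun _ h => h.elim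
    obtain ⟨B, π, u, s, c⟩ := r.exists_data hz.1.1.1.mem'
    exact Fam.mem_posG hk hD hz.1.1.1.mem' r (AM.pos_glue.1 (Fam.pos_of_posG hz.2.2 hz.1.1.1.mem
      (hz.1.1.1.repD c fun _ h => h.elim).rep))
  · have a := (hn.num.mfd_adm hA hF.toInv hB (Ch.Zb.adm hn hF.toInv Subset.rfl hz.1.1)).1
    have c := (hn.num'.mfd_adm hA hF.toInv hB hz.1.1.2.1).1
    zify
    rw [a, c, NdL.dimM_eq, NdL.dimM_eq, ← hn.g]
    simp only [Fintype.card_sum, Fintype.card_unit]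
    push_cast
    ring

end Vale.Agent.P269
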