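import Vale.Agent.P287Q.G.Qrr.NdA
import Vale.Agent.P287Q.G.Glu.Cls
import Vale.Agent.P287Q.G.Bas.Ev
import Vale.Agent.P287Q.G.Prj.Tgt

/-!
# Classes at the labelled node
-/

set_option linter.unusedSectionVars false
set_option linter.style.haveILetI false

namespace Vale.Agent.P269.Ch

open P291Z Set Function Topology Filter Base Cv Holo PowerSeries

namespace NdT

theorem lc {X : Type*} [TopologicalSpace X] [T2Space X] {s : Set X} (h : LocallyCompactSpace s) :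
    IsLocallyClosed s := by
  refine ((isLocallyClosed_tfae s).out 3 0).1 fun x hx => ?_
  obtain ⟨K, a, b⟩ := exists_compact_mem_nhds (⟨x, hx⟩ : s)
  obtain ⟨U, c, d, e⟩ := mem_nhdsWithin.1 ((nhdsWithin_eq_map_subtype_coe hx).le (image_mem_map b))
  exact ⟨U, d, c, (c.inter_closure.trans (closure_minimal e
    (a.image continuous_subtype_val).isClosed)).trans (Subtype.coe_image_subset _ _)⟩

variable {A A' W W' P P' P'' : Type} [NormedRing A] [NormedAlgebra ℂ A] [NormedAddCommGroup W]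
  [NormedSpace ℂ W] [NormedRing A'] [NormedAlgebra ℂ A'] [NormedAddCommGroup W'] [NormedSpace ℂ W']
  [NormedAddCommGroup P] [NormedSpace ℂ P] [NormedAddCommGroup P'] [NormedSpace ℂ P']
  [NormedAddCommGroup P''] [NormedSpace ℂ P''] [FiniteDimensional ℂ P] [FiniteDimensional ℂ P']
  {act : A → W → W} {act' : A' → W' → W'} {T : Set W} {T' : Set W'} {E₁ : SD A W P}
  {E₂ : SD A W P'} {E : SD A' W' P''} {q q' p p' r r' : ℕ} {θ : A → A'} {f : W → W'}

/-- The direct sum. -/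
@[reducible] def dsum (E₁ : SD A W P) (E₂ : SD A W P') : SD A W (P × P') :=
  ⟨fun a v => (E₁.ρ a v.1, E₂.ρ a v.2), E₁.P₀.prod E₂.P₀, fun x => (E₁.B x).prod (E₂.B x),
    fun x => (E₁.N x).prod (E₂.N x)⟩

theorem fam_dsum {B : W → Submodule ℂ P} {B' : W → Submodule ℂ P'}
    (h : IsFam act E₁.ρ T E₁.P₀ B q) (h' : IsFam act E₂.ρ T E₂.P₀ B' p) :
    IsFam act (dsum E₁ E₂).ρ T (dsum E₁ E₂).P₀ (fun x => (B x).prod (B' x)) (q + p) :=
  ⟨fun x hx => Submodule.prod_mono (h.le x hx) (h'.le x hx),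
    (h.closed.preimage (f := fun z : T × P × P' => (z.1, z.2.1)) (by fun_prop)).inter
      (h'.closed.preimage (f := fun z : T × P × P' => (z.1, z.2.2)) (by fun_prop)),
    fun x hx => by rw [VB.finrank_prod, h.rank x hx, h'.rank x hx],
    fun x hx a ha _ e => ⟨h.inv x hx a ha _ e.1, h'.inv x hx a ha _ e.2⟩⟩

theorem ok_dsum (h₁ : E₁.Ok act T q q') (h₂ : E₂.Ok act T p p') :
    (dsum E₁ E₂).Ok act T (q + p) (q' + p') :=
  ⟨inferInstance, ⟨fun a ha _ e => ⟨h₁.rep.mem a ha _ e.1, h₂.rep.mem a ha _ e.2⟩,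
    fun a ha _ e _ e' => Prod.ext (h₁.rep.add a ha _ e.1 _ e'.1) (h₂.rep.add a ha _ e.2 _ e'.2),
    fun a ha z _ e => Prod.ext (h₁.rep.smul a ha z _ e.1) (h₂.rep.smul a ha z _ e.2),
    fun _ e => Prod.ext (h₁.rep.one _ e.1) (h₂.rep.one _ e.2),
    fun a b ha hb _ e => Prod.ext (h₁.rep.mul a b ha hb _ e.1) (h₂.rep.mul a b ha hb _ e.2),
    fun _ e => (h₁.rep.cont _ e.1).prodMk (h₂.rep.cont _ e.2)⟩, fam_dsum h₁.famB h₂.famB,
    fam_dsum h₁.famN h₂.famN, fun x hx => Submodule.prod_mono (h₁.le x hx) (h₂.le x hx)⟩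

variable [IsAct act T] [IsAct act' T'] (ho : Orb.Orb Aˣ (Holo.Sp act T))
include ho

theorem ch_dsum (h₁ : E₁.Ok act T q q') (h₂ : E₂.Ok act T p p') :
    (dsum E₁ E₂).ch act T = E₁.ch act T * E₂.ch act T :=
  (ok_dsum h₁ h₂).exact ho h₁ h₂ (L₁ := fun _ => .inl ℂ P P') (L₂ := fun _ => .snd ℂ P P')
    ⟨fun _ _ => continuousOn_const, fun _ _ _ e => ⟨e, zero_mem _⟩, fun _ _ _ e => ⟨e, zero_mem _⟩,
      fun x hx a ha _ _ => ⟨mem_of_eq_of_mem (sub_self _) (zero_mem _),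
        sub_mem (zero_mem _) (h₂.famN.inv x hx a ha _ (zero_mem _))⟩⟩
    ⟨fun _ _ => continuousOn_const, fun _ _ _ e => e.2, fun _ _ _ e => e.2,
      fun _ _ _ _ _ _ => mem_of_eq_of_mem (sub_self _) (zero_mem _)⟩ (fun _ _ _ _ e => e.1)
    (fun _ _ w e => ⟨(0, w), ⟨zero_mem _, e⟩, mem_of_eq_of_mem (sub_self _) (zero_mem _)⟩)
    (fun _ _ _ _ => zero_mem _) fun _ => by omega

/-- a bundle that is the sum of two bundles -/
theorem ch_of_sum (ho' : Orb.Orb A'ˣ (Holo.Sp act' T')) (h : E.Ok act' T' r r')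
    (h₁ : E₁.Ok act T q q') (h₂ : E₂.Ok act T p p') (hf : EqM act act' T T' θ f)
    {L₁ : W → P →ₗ[ℂ] P''} {L₂ : W → P' →ₗ[ℂ] P''} (a₁ : E₁.Hom E act T θ f L₁)
    (a₂ : E₂.Hom E act T θ f L₂) (hi : ∀ x ∈ T, ∀ v ∈ E₁.B x, ∀ w ∈ E₂.B x,
      L₁ x v + L₂ x w ∈ E.N (f x) → v ∈ E₁.N x ∧ w ∈ E₂.N x) (hr : q + p + r' = r + (q' + p')) :
    Grr.pS hf.map (E.ch act' T') = E₁.ch act T * E₂.ch act T := by
  have o := ok_dsum h₁ h₂
  have a : (dsum E₁ E₂).Hom E act T θ f fun x => (L₁ x).coprod (L₂ x) := by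
    refine ⟨fun v e => (a₁.cont _ e.1).add (a₂.cont _ e.2),
      fun x hx v e => add_mem (a₁.mapB x hx _ e.1) (a₂.mapB x hx _ e.2),
      fun x hx v e => add_mem (a₁.mapN x hx _ e.1) (a₂.mapN x hx _ e.2), fun x hx s hs v e => ?_⟩
    have := add_mem (a₁.eqv x hx s hs _ e.1) (a₂.eqv x hx s hs _ e.2)
    rwa [sub_add_sub_comm, ← h.rep.add _ (hf.isUnit hs) _
      (h.famB.le _ (hf.maps hx) (a₁.mapB x hx _ e.1)) _
      (h.famB.le _ (hf.maps hx) (a₂.mapB x hx _ e.2))] at this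
  have i : (dsum E₁ E₂).Inj E T f fun x => (L₁ x).coprod (L₂ x) :=
    fun x hx v e => hi x hx _ e.1 _ e.2
  exact (o.pull ho ho' h hf a i ((a.rank o h hf.maps i).2 fun _ => hr)).2.symm.trans
    (ch_dsum ho h₁ h₂)

/-- line bundles -/
theorem ch_line (h : E₁.Ok act T (q + 1) q) {a : Hev (Quo act T)} (ha : a.1 = hcls (E₁.eu act T)) :
    E₁.ch act T = 1 + C a * X := by
  obtain ⟨_, V, _, _, -, h0, h1, -⟩ := h.exists_isMod ho
  refine PowerSeries.ext fun m => ?_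
  rcases m with _ | _ | m
  · simpa using h.constCoeff ho
  · have := h.coeff_top ho
    rw [Nat.add_sub_cancel_left] at this
    simpa [coeff_one] using Subtype.ext (this.trans ha.symm)
  · rw [SD.ch, SD.chernT_presA ho h1]
    exact ((V.coeff_chR _).trans (if_neg (by omega))).trans
      (show coeff (m + 1 + 1) (1 + C a * X : (Hev (Quo act T))⟦X⟧) = 0 by simp [coeff_one]).symm

omit ho in
theorem ch_pb (ho : Orb.Orb A'ˣ (Holo.Sp act' T')) (ho' : Orb.Orb Aˣ (Holo.Sp act T))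
    (h : E₁.Ok act T q q') {θ : A' → A} {f : W' → W} (hf : EqM act' act T' T θ f) :
    (E₁.pb θ f).ch act' T' = Grr.pS hf.map (E₁.ch act T) :=
  ((h.pb hf).pull ho ho' h hf (L := fun _ => .id)
    ⟨fun _ _ => continuousOn_const, fun _ _ _ a => a, fun _ _ _ a => a,
      fun _ _ _ _ _ _ => mem_of_eq_of_mem (sub_self _) (zero_mem _)⟩ (fun _ _ _ _ a => a)
    fun _ _ w a => ⟨w, a, mem_of_eq_of_mem (sub_self _) (zero_mem _)⟩).2

end NdT

variable {S Λ R J K ι ν κ : Type} [Fintype S] [Fintype Λ] [Fintype R] [Fintype J] [Fintype K]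
  [Fintype ι] [DecidableEq ι] [Fintype ν] [Fintype κ] {ch : Ch ι J} {n : Nm ι J}
  {F : Fam S Λ R J K} {ℓ : R → ι → ℤ} {Z : Set (ch.WF ν κ Λ)}
  {Z' : Set ((ch.re n).WF ν (κ ⊕ Unit) Λ)} {Y : Set (ch.WG n ν κ Unit Λ)}
  {f : ch.WG n ν κ Unit Λ → (ch.re n).WF ν (κ ⊕ Unit) Λ}

theorem NdT.eqv_unv (h : GZ F ℓ Z) : Tq.Eqv (actC F.toWt) F.actT (unv Z) F.cone
    fun x => (x.1.1, Ch.fld x.1.2 x.2) := by
  have k := fun (x : ch.WC ν κ Λ) (hx : x ∈ unv Z) => (mem_solF.1 (h.sol hx.1)).2 _ hx.2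
  refine ⟨fun x hx => (k x hx).2, fun x hx => (continuousAt_fst.comp
    continuousAt_fst).continuousWithinAt.prodMk (tendsto_pi_nhds.2 fun j =>
      tendsto_val (x := fun y : ch.WC ν κ Λ => y.1.2) (c := Prod.snd) (h.base _ hx.1).1
        (continuousAt_fst.snd.tendsto.mono_left nhdsWithin_le_nhds)
        (continuousAt_snd.tendsto.mono_left nhdsWithin_le_nhds) hx.2
        (eventually_mem_nhdsWithin.mono fun y (hy : y ∈ unv Z) =>
          ⟨hy.2, val_fld ((k y hy).1 j)⟩) (val_fld ((k x hx).1 j))),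
    fun s hs x hx => ?_⟩
  obtain ⟨a, b⟩ := isUnitU_iff.1 hs
  refine ⟨(s.1.1, fun r => ∏ i, s.2 i ^ ℓ r i), Prod.isUnit_iff.2 ⟨(Prod.isUnit_iff.1 a).1,
    isUnit_pi_iff.2 fun r => Finset.prod_ne_zero_iff.2 fun i _ => zpow_ne_zero _ (b i)⟩,
    Prod.ext rfl (funext fun j => (Cv.fld_eq (crv_smul ((mem_crv_actF a).2 ⟨_, hx.2, rfl⟩) b)
      (((val_fld ((k x hx).1 j)).actF a).smul b)).trans ?_)⟩
  rw [← mul_assoc, mul_comm (∏ i, s.2 i ^ _)]
  refine congrArg (fun z => _ * z * _) ?_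
  simp only [h.wt, ← Finset.prod_zpow, ← zpow_mul, zpow_sum_ne (b _), mul_comm]
  exact Finset.prod_comm

/-- the universal map -/
theorem GZ.exists_evU (h : GZ F ℓ Z) : ∃ u : C(Quo (actC F.toWt) (unv Z), F.X F.cone),
    (∀ x : unv Z, ∃ hx, u (Quo.mk _ x) = Quo.mk F.actT ⟨(x.1.1.1, Ch.fld x.1.1.2 x.1.2), hx⟩) ∧
      ∀ c, eC F Z c = H.map u c :=
  have a := NdT.eqv_unv h
  ⟨a.qm, fun x => ⟨a.maps x.2, rfl⟩, fun c => (congrArg hcls
    ((dif_pos fun z => a.maps (Quo.out z).2).trans (congrArg (pull · _) (funext a.qm_out)))).trans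
      ((H.map_hcls _ (Mono.DgI.rep_cocycle c)).symm.trans (congrArg _ (Mono.DgI.hcls_rep c)))⟩

/-- the two branches of the labelled node -/
theorem NdT.exists_cross {x : ch.W (Mk ν κ)} {w : ch.Lb n (Mk ν (κ ⊕ Unit))} (h : Gl x w) :
    ∃ γ : Bool → ℂ → V n.M, (∀ b, IsBranch ch.o (crv w.1) (γ b) ∧ γ b 0 = w.1.p (nq () b)) ∧
      LinearIndependent ℂ ![apV w.2.1 (w.1.p (nq () false)) ch.o,
        apV w.2.1 (deriv (γ false) 0) ch.o, apV w.2.1 (deriv (γ true) 0) ch.o] := by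
  classical
  obtain ⟨X, _, _, _, Q, N, A, π, p, P', e, P⟩ := h.par
  have c := (P.isCross (n := (p (nq () false), p (nq () true)))
    (Finset.mem_union_right _ (Finset.mem_image_of_mem _ (Finset.mem_univ ())))).2.2.2.2
  have d := fun b => (GlP.hasDerivAt_apV w.2.1
    (P'.isBranch (p (nq () b))).holo.differentiableAt.hasDerivAt).deriv
  rw [GlP.br_apV, GlP.br_apV, d, d, e] at c
  exact ⟨fun b => br A π (p (nq () b)),
    fun b => ⟨P'.isBranch _, (Cv.br_zero (A := A) _).trans (e _)⟩, c⟩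

variable (hZ : GZ F ℓ Z) (hZ' : GZ F ℓ Z') (hY : ∀ z ∈ Y, Gl z.1.2 z.2)
  (h₂ : EqM (actG F.toWt : ch.AG n ν κ Unit S → _) (actF F.toWt) Y Z' θG f)
  (hη : EqM (actG F.toWt : ch.AG n ν κ Unit S → _) (actC F.toWt) Y (nod Z) θN ηN)
include hZ hZ' hY

/-- the universal map at the labelled node -/
theorem eC_glue (hf : ∀ z ∈ Y, vl (f z) (nq () false) = (z.1.1, fld z.1.2 (ηN z).2))
    (c : H (F.X F.cone)) : H.map hη.map (hpull (inN _ _) (eC F Z c)) =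
      H.map h₂.map (F.cl Z' (.ev (nq () false) F.cone c)) := by
  obtain ⟨u, a, b⟩ := hZ.exists_evU
  rw [b, hZ'.cl_ev _ fun x hx => vl_mem (hZ'.sol hx) _, H.map_map,
    show hpull (inN _ _) _ = _ from
      Tq.hpull_eq (EqM.incl (act := actC F.toWt) (nod_sub (Z := Z))).map _, H.map_map, H.map_map]
  refine congrArg (H.map · c) (ContinuousMap.ext fun z => Quot.inductionOn z fun y => ?_)
  obtain ⟨_, e⟩ := a ⟨ηN y.1, (hη.maps y.2).1⟩
  exact e.trans (congrArg (Quo.mk F.actT) (Subtype.ext (hf _ y.2).symm))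

/-- **the Chern roots of the tangent space at the node** -/
theorem sdT_glue [IsAct (actG F.toWt : ch.AG n ν κ Unit S → _) Y]
    (ho : Orb.Orb (ch.AG n ν κ Unit S)ˣ (Holo.Sp (actG F.toWt) Y))
    (hf : ∀ z ∈ Y, (f z).2.Q = z.2.1.Q ∧ (f z).2.p = z.2.1.p)
    {a b : Hev (Quo (actF F.toWt) Z')} (ha : a.1 = -F.cl Z' (.psi (nq () false)))
    (hb : b.1 = -F.cl Z' (.psi (nq () true))) :
    Grr.pS hη.map ((ch.sdT S Λ ν κ).ch (actC F.toWt) (nod Z)) =
      (1 + C (Hev.map h₂.map a) * X) * (1 + C (Hev.map h₂.map b) * X) := by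
  haveI := hZ.act
  haveI := hZ'.act
  have c : ∀ z ∈ Y, crv (f z).2 = crv z.2.1 := fun z hz => by
    simp only [crv, gr, (hf z hz).1]
  have p : ∀ z ∈ Y, ∀ s, apV z.2.2.1 ((f z).2.p (nq () s)) = (ηN z).2 := fun z hz s => by
    rw [(hf z hz).2]
    cases s
    exacts [rfl, ((hY z hz).node ()).symm]
  have hL : ∀ s, (((ch.re n).sdψ S Λ (nq () s)).pb θG f).Hom (ch.sdT S Λ ν κ)
      (actG F.toWt : ch.AG n ν κ Unit S → _) Y θN ηN
      fun z => (GlC.apL z.2.2.1 : V n.M →L[ℂ] V ch.M) := fun s => by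
    refine ⟨fun v _ => Continuous.continuousOn (continuous_pi fun i => ?_), fun z hz v hv => ?_,
      fun z hz v hv => ?_, fun z hz t ht v hv => mem_of_eq_of_mem
        (sub_eq_zero.2 (funext fun i => ?_)) (zero_mem _)⟩
    · exact ((continuous_apply i).comp (continuous_fst.comp (continuous_snd.comp
        continuous_snd))).clm_apply continuous_const
    · have := Psi.Tg_map (GlC.apL z.2.2.1) (fun y hy => (hY z hz).apV_mem (c z hz ▸ hy)) hv
      rwa [show GlC.apL z.2.2.1 ((f z).2.p (nq () s)) = _ from p z hz s] at this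
    · obtain ⟨b, rfl⟩ := Psi.mem_Nr.1 hv
      exact Psi.mem_Nr.2 ⟨b, p z hz s ▸ GlP.apV_smul _ _ _⟩
    · exact (map_smul _ _ _).trans (congrArg _
        (actLb_V (c := 1) (isUnit_dupF (isUnit_θG ht)) i _))
  have l : ∀ s {a : Hev (Quo (actF F.toWt) Z')}, a.1 = -F.cl Z' (.psi (nq () s)) →
      (((ch.re n).sdψ S Λ (nq () s)).pb θG f).ch (actG F.toWt : ch.AG n ν κ Unit S → _) Y =
        1 + C (Hev.map h₂.map a) * X := fun s a ha => by
    rw [NdT.ch_pb ho hZ'.orb (hZ'.psi _) h₂,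
      NdT.ch_line hZ'.orb (hZ'.psi _) (a := a) (by rw [ha, hZ'.cl_psi, neg_neg]), map_add, map_one,
      map_mul, map_C, map_X]
    rfl
  rw [← l _ ha, ← l _ hb]
  refine NdT.ch_of_sum ho (hZ.cuts.orb_nod hZ.base hZ.orb (NdT.lc hZ.orb.nice.lc))
    (hZ.cuts.okT hZ.base) ((hZ'.psi _).pb h₂) ((hZ'.psi _).pb h₂) hη (hL _) (hL _)
    (fun z hz v hv w hw e => ?_) (by omega)
  obtain ⟨γ, g, k⟩ := NdT.exists_cross (hY z hz)
  have m := fun s {v} => mem_sdψ_B (S := S) (v := v) (hZ'.base _ (h₂.maps hz))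
    ((c z hz).symm ▸ (g s).1) ((hf z hz).2.symm ▸ (g s).2)
  obtain ⟨r, r1⟩ := (m false).1 hv
  obtain ⟨s, s1⟩ := (m true).1 hw
  obtain ⟨r', r2⟩ := Psi.mem_Nr.1 r1
  obtain ⟨s', s2⟩ := Psi.mem_Nr.1 s1
  obtain ⟨t, t1⟩ := Psi.mem_Nr.1 e
  have u : ∀ s {v : V n.M} {r : ℂ} {r' : ι → ℂ}, v - r • deriv (γ s) 0 = r' • (f z).2.p (nq () s) →
      GlC.apL z.2.2.1 v = r • apV z.2.2.1 (deriv (γ s) 0) + r' • (ηN z).2 := fun s v r r' e => by
    rw [← p z hz s, ← GlP.apV_smul, ← e]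
    exact (congrArg _ (add_sub_cancel (r • deriv (γ s) 0) v).symm).trans
      ((map_add _ _ _).trans (congrArg (· + _) (map_smul _ _ _)))
  have t2 := (congrArg₂ (· + ·) (u _ r2) (u _ s2)).symm.trans t1
  rw [add_add_add_comm, ← add_smul] at t2
  obtain ⟨rfl, rfl⟩ := Grr.ChNp.coeff_zero k (congrFun t2 ch.o)
  rw [zero_smul, sub_zero] at r1 s1
  exact ⟨r1, s1⟩

end Vale.Agent.P269.Ch
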