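import Vale.Agent.P287Q.G.Qrr.NdD
import Vale.Agent.P287Q.G.Glu.Prp
import Vale.Agent.P287Q.G.Spl.GBg
import Vale.Agent.P287Q.G.Spl.GBa
import Vale.Agent.P287Q.G.Spl.GBu
import Vale.Agent.P287Q.G.Spl.GBx

/-!
# The labelled node: pointwise facts
-/

set_option linter.unusedSectionVars false

namespace Vale.Agent.P269.Ch

open P291Z Set Function Topology Filter Base Cv Holo

variable {S Λ R J K ι ν κ ε : Type} [Fintype S] [Fintype Λ] [Fintype R] [Fintype J] [Fintype K]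
  [Fintype ι] [DecidableEq ι] [Fintype ν] [Fintype κ] [Fintype ε] {ch : Ch ι J} {n : Nm ι J}
  {Wg : Wt S Λ R J} {F : Fam S Λ R J K} {O : Set (ch.WF ν κ Λ)} {z z' : ch.WG n ν κ Unit Λ}
  {a : ch.AG n ν κ Unit S}

namespace NdA

section swp

variable {x : ch.W (Mk ν κ)} {w : ch.Lb n (Mk ν (κ ⊕ ε))}

theorem swq_inj : Injective (swq : Mk ν (κ ⊕ ε) → _) := LeftInverse.injective swq_swq

theorem lead_swl {γ : ℂ → V n.M} {ρ : ℂ} : Lead (swl w).1 γ ρ ↔ Lead w.1 γ ρ := by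
  classical
  have e : (∃ q, ∃ s : ι → ℂ, γ 0 = s • (swl w).1.p q) ↔ ∃ q, ∃ s : ι → ℂ, γ 0 = s • w.1.p q :=
    ((LeftInverse.surjective swq_swq).exists (p := fun q => ∃ s : ι → ℂ, γ 0 = s • w.1.p q)).symm
  refine exists_congr fun f => and_congr_right fun _ => and_congr_right fun _ =>
    eventually_congr (.of_forall fun t => forall_congr' fun u => forall_congr' fun _ =>
      forall_congr' fun μ => Eq.congr_right (congrArg (f t * · ^ ch.k * _) ?_))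
  exact if_congr (or_congr_right e) rfl rfl

theorem base_swl (h : w.1 ∈ (ch.re n).base _) : (swl w).1 ∈ (ch.re n).base _ :=
  ⟨h.1, h.2.1, h.2.2.1, fun q => h.2.2.2.1 (swq q), fun _ _ s e => swq_inj (h.2.2.2.2.1 _ _ s e),
    fun γ a => (h.2.2.2.2.2.1 γ a).imp fun _ b => ⟨b.1, lead_swl.2 b.2⟩,
    fun c _ _ _ _ a b d => h.2.2.2.2.2.2 c _ _ _ _ a (lead_swl.1 b) (lead_swl.1 d)⟩

theorem gl_swl (h : Gl x w) : Gl x (swl w) := by
  obtain ⟨c, A, π, u, ξ, ξ', a⟩ := h.exists_gd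
  let c' : AC ν (κ ⊕ ε) := ⟨c.X, c.R, c.N, fun q => c.p (swq q), c.nd, c.inj.comp swq_inj,
    fun q => c.sm _⟩
  refine ⟨⟨h.Q, h.Ξ⟩, h.mem, base_swl h.mem', h.surj, h.inj, fun q => (h.mark q).trans
    (congrArg (fun q => apV w.2.1 (w.1.p q)) (swq_inc q).symm), fun e => (h.node e).symm,
    c.X, _, inferInstance, inferInstance, c.R, c.N, A, π, c'.p, a.cr'.par, fun q => a.mark _,
    a.cr.par.congr c'.glue.nd fun y y' => ?_⟩
  refine AC.jn_glue.trans (Iff.trans (or_congr_right (exists_congr fun e => ?_))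
    (AC.jn_glue (c := c')).symm)
  rw [Bool.exists_bool, Bool.exists_bool]
  exact or_comm

theorem adm_swl {l : Λ → ℂ} (h : (l, w.1) ∈ (ch.re n).adm ν (κ ⊕ ε) F) :
    (l, (swl w).1) ∈ (ch.re n).adm ν (κ ⊕ ε) F := by
  obtain ⟨⟨h1, h2, h3⟩, h4, h5, h6, h7⟩ := h
  refine ⟨⟨h1, base_swl h2, ?_⟩, h4, h5, h6, ?_⟩
  · rintro (q | q) γ₁ γ₂ ρ₁ ρ₂ b1 b2 e1 e2 l1 l2
    · exact h3 (.inl q) γ₁ γ₂ ρ₁ ρ₂ b1 b2 e1 e2 (lead_swl.1 l1) (lead_swl.1 l2)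
    · rw [h3 (.inr q) γ₂ γ₁ ρ₂ ρ₁ b2 b1 e2 e1 (lead_swl.1 l2) (lead_swl.1 l1), ← mul_assoc,
        ← mul_pow, neg_one_mul, neg_neg, one_pow, one_mul]
  · rintro j hj (q | q)
    exacts [h7 j hj (.inl q), (h7 j hj (.inr q)).symm]

/-- the labelled branches cross -/
theorem cross (h : Gl x w) {γ : ε → Bool → ℂ → V ch.M} (b : Brs w γ) (e : ε) :
    Nrm.J ch.o (γ e false) 0 ≠ Nrm.J ch.o (γ e true) 0 := by
  obtain ⟨c, A, π, u, ξ, ξ', a⟩ := h.exists_gd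
  rw [a.cr.par.dc_J (a.fac b e false), a.cr.par.dc_J (a.fac b e true)]
  exact a.cr.par.dc_ne (AC.jn_glue.2 (.inr ⟨e, false, rfl, rfl⟩))

theorem exists_brs (h : Gl x w) : ∃ γ, Brs w γ ∧ ∀ e b, IsBranch ch.o (crv x) (γ e b) ∧
    γ e b 0 = apV w.2.1 (w.1.p (nq e false)) := by
  choose δ h1 h2 using fun e b => exists_branch_p h.mem' (nq e b)
  refine ⟨fun e b t => apV w.2.1 (δ e b t), fun e b => ⟨_, h1 e b, h2 e b, dc_refl _⟩,
    fun e b => ⟨h.isBranch (h1 e b), (congrArg _ (h2 e b)).trans ?_⟩⟩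
  cases b
  exacts [rfl, (h.node e).symm]

end swp

theorem θN_eq_one : θN a = 1 ↔ a.1 = 1 ∧ a.2.2.2 = 1 :=
  ⟨fun h => ⟨congrArg Prod.fst h, funext fun _ => congrArg Prod.snd h⟩,
    fun h => Prod.ext h.1 (congrFun h.2 ())⟩

theorem ηN_act (ha : IsUnit a) : ηN (actG Wg a z) = actC Wg (θN a) (ηN z) :=
  Prod.ext rfl (funext fun i => (map_smul _ _ _).trans (congrArg (a.2.2.2 () i • ·)
    (congrArg (fun v => a.1.2.1 i (z.2.2.1 i v))
      (inv_ap ((Cv.isUnit_iff.1 (AP.isUnit_iff.1 ha).2).1 i) _))))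

theorem one (hn : ch.GN n Unit) (h : Gl z.1.2 z.2) (h' : Gl z'.1.2 z'.2) (e : ηN z = ηN z')
    (hX : z.2.1.X = 0) (hX' : z'.2.1.X = 0) {γ} (b : Brs z.2 γ) (b' : Brs z'.2 γ) :
    ∃ a : ch.AG n ν κ Unit S, IsUnit a ∧ θN a = 1 ∧ actG Wg a z = z' := by
  obtain ⟨x, w⟩ := z
  obtain ⟨x', w'⟩ := z'
  obtain rfl : x = x' := congrArg Prod.fst e
  obtain ⟨a, ha, e1, -⟩ := Gl.exists_unit ⟨hn.cuts, hn.tight.1, hn.tight'.1⟩ h h' b b'
  have e2 : actG Wg (GBa.inr S a) (x, w) = (x, w') := by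
    refine (actG_one Wg a _).trans (Prod.ext rfl (Eq.trans ?_ e1))
    refine Prod.ext (W.ext (fun _ => rfl) (fun _ => rfl) rfl fun j => ?_) rfl
    refine Eq.trans ?_ (congrFun hX' j).symm
    change _ ∘L w.1.X j ∘L _ = 0
    rw [show w.1.X j = 0 from congrFun hX j]
    simp
  have e3 := congrArg Prod.snd ((e.trans (congrArg ηN e2).symm).trans (ηN_act (GBa.unit ha)))
  exact ⟨_, GBa.unit ha, θN_eq_one.2 ⟨rfl, funext fun _ => Dict.smul_cancel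
    (crv_ne (h.apV_mem (h.mem'.2.2.2.1 (nq () false)).1)) (e3.symm.trans (one_smul _ _).symm)⟩, e2⟩

theorem ιN_mul (s t : (ch.re n).A Empty) : (ιN (s * t) : ch.AG n ν κ ε S) = ιN s * ιN t :=
  Prod.ext (mul_one (1 : ch.AF ν κ S)).symm
    (Prod.ext rfl (Prod.ext rfl (mul_one (1 : ε → ι → ℂ)).symm))

theorem isUnit_ιN {s : (ch.re n).A Empty} (h : IsUnit s) : IsUnit (ιN s : ch.AG n ν κ ε S) :=
  h.map (⟨⟨ιN, rfl⟩, ιN_mul⟩ : (ch.re n).A Empty →* ch.AG n ν κ ε S)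

/-- limits of units that act trivially on the universal curve -/
theorem lim (hn : ch.GN n Unit) {α : Type} {l : Filter α} [l.NeBot] {y : α → ch.WG n ν κ Unit Λ}
    {a : α → ch.AG n ν κ Unit S} (h : Gl z.1.2 z.2) (h' : Gl z'.1.2 z'.2)
    (hy : ∀ᶠ k in l, Gl (y k).1.2 (y k).2 ∧ IsUnit (a k) ∧ θN (a k) = 1) (h1 : Tendsto y l (𝓝 z))
    (h2 : Tendsto (fun k => actG Wg (a k) (y k)) l (𝓝 z')) :
    ∃ b, IsUnit b ∧ θN b = 1 ∧ actG Wg b z = z' ∧ Tendsto a l (𝓝 b) := by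
  obtain ⟨b, hb, e⟩ := h.tendsto hn h' (hy.mono fun _ k => ⟨k.1, k.2.1⟩) h1 h2 isUnit_one
    (tendsto_const_nhds.congr' (hy.mono fun _ k => (θN_eq_one.1 k.2.2).1.symm))
  exact ⟨b, hb, tendsto_nhds_unique (((θN : CL (ch.AG n ν κ Unit S) _).continuous.tendsto b).comp e)
    (tendsto_const_nhds.congr' (hy.mono fun _ k => k.2.2.symm)), tendsto_nhds_unique
    (((isAct_actG (Wg := Wg)).an b hb z trivial).continuousAt.tendsto.comp (e.prodMk_nhds h1)) h2, e⟩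

end NdA

open NdA

theorem swp_swp (z : ch.WG n ν κ ε Λ) : swp (swp z) = z :=
  Prod.ext rfl (Prod.ext (W.ext (fun _ => rfl) (fun q => congrArg z.2.1.p (swq_swq q)) rfl
    fun _ => rfl) rfl)

theorem an_swp (z : ch.WG n ν κ ε Λ) : AnalyticAt ℂ swp z :=
  have h := Lb.an_iff.1 (analyticAt_snd (𝕜 := ℂ) (p := z))
  analyticAt_fst.prod (Lb.an_iff.2 ⟨W.an_iff.2
    ⟨fun l => (W.an_Q h.1 l :), fun q => (W.an_p h.1 (swq q) :), (W.an_Ξ h.1 :),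
      fun j => (W.an_X h.1 j :)⟩, h.2⟩)

theorem an_ηN (z : ch.WG n ν κ Unit Λ) : AnalyticAt ℂ ηN z :=
  have h := Lb.an_iff.1 (analyticAt_snd (𝕜 := ℂ) (p := z))
  analyticAt_fst.prod (AnalyticAt.pi fun i =>
    an_apply (h.2.1 i) (analyticAt_pi_iff.1 (W.an_p h.1 _) i))

theorem swp_actG (a : ch.AG n ν κ ε S) (z : ch.WG n ν κ ε Λ) :
    swp (actG Wg a z) = actG Wg a (swp z) :=
  Prod.ext rfl (Prod.ext (W.ext (fun _ => rfl) (fun q => by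
    rcases q with _ | ⟨_ | _, _⟩ <;> rfl) rfl fun _ => rfl) rfl)

theorem Gl.swp {z : ch.WG n ν κ ε Λ} (h : Gl z.1.2 z.2) : Gl (swp z).1.2 (swp z).2 := gl_swl h

theorem Gl.ηN_swp (h : Gl z.1.2 z.2) : ηN (Ch.swp z) = ηN z := Prod.ext rfl (h.node ()).symm

theorem OL.swp (hz : z ∈ ch.OL n F O) : swp z ∈ ch.OL n F O :=
  ⟨⟨⟨hz.1.1.1.swp, adm_swl hz.1.1.2.1, hz.1.1.2.2⟩, hz.1.2⟩, hz.2⟩

theorem OL.X_eq (hA : F.Abs) (hz : z ∈ ch.OL n F O) : z.2.1.X = 0 := funext fun j =>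
  (em (j ∈ F.mov)).elim (hz.1.2 j) fun a => hz.1.1.2.1.2.2.2.1 j (hA.1 a)

theorem ivt_OL (hF : F.Inv) (hO : Ivt (actF F.toWt) O) :
    Ivt (actG F.toWt : ch.AG n ν κ Unit S → _) (ch.OL n F O) := fun a ha z hz =>
  ⟨ivt_Zf (T := (ch.re n).adm ν (κ ⊕ Unit) F) (fun _ hs _ => actF_mem_adm hF hs) a ha z hz.1,
    ivt_fst hO a ha z hz.2⟩

theorem θN_usurj (b : ch.AU ν κ S) (hb : IsUnit b) :
    ∃ a : ch.AG n ν κ Unit S, IsUnit a ∧ θN a = b :=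
  ⟨(b.1, 1, 1, fun _ => b.2), AP.isUnit_iff.2 ⟨(isUnitU_iff.1 hb).1, Cv.isUnit_iff.2
    ⟨fun _ => isUnit_one, fun _ => isUnit_one, fun _ => (isUnitU_iff.1 hb).2⟩⟩, rfl⟩

theorem eqM_ηN : EqM (actG Wg : ch.AG n ν κ Unit S → ch.WG n ν κ Unit Λ → _) (actC Wg) univ univ
    θN ηN :=
  EqM.of_hom (⟨⟨θN, rfl⟩, fun _ _ => rfl⟩ : ch.AG n ν κ Unit S →* ch.AU ν κ S)
    ((θN : CL (ch.AG n ν κ Unit S) _).continuous.comp Units.continuous_val) (mapsTo_univ _ _)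
    (fun z _ => (an_ηN z).continuousAt.continuousWithinAt) fun _ ha _ _ => ηN_act ha

theorem Gl.ηN_mem (h : Gl z.1.2 z.2) (hz : z.1 ∈ O) : ηN z ∈ nod O :=
  ⟨⟨hz, h.apV_mem (h.mem'.2.2.2.1 _).1⟩, h.isNode ()⟩

/-- **a node has two labels** -/
theorem Gl.two (hn : ch.GN n Unit) (h : Gl z.1.2 z.2) (h' : Gl z'.1.2 z'.2) (e : ηN z = ηN z')
    (hX : z.2.1.X = 0) (hX' : z'.2.1.X = 0) : ∃ a : ch.AG n ν κ Unit S, IsUnit a ∧ θN a = 1 ∧
      (actG Wg a z = z' ∨ actG Wg a z = Ch.swp z') := by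
  obtain ⟨γ, b, k⟩ := exists_brs h
  obtain ⟨γ', b', k'⟩ := exists_brs h'
  have hC := h.mem.2.2.1.isNodal
  rw [← show z.1 = z'.1 from (congrArg Prod.fst e :)] at k'
  have e0 : ∀ q q', γ' () q' 0 = γ () q 0 := fun q q' =>
    (k' _ _).2.trans ((congrArg Prod.snd e).symm.trans (k _ _).2.symm)
  have c := Nrm.isCross_of_ne (k () false).1 (k () true).1 ((e0 _ true).symm.trans (e0 _ _))
    (cross h b ())
  have d := fun q => GBx.J_or hC c (k' () q).1 (congrArg Nrm.P (e0 _ _).symm)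
  have f : ∀ {q q'}, Nrm.J ch.o (γ' () q') 0 = Nrm.J ch.o (γ () q) 0 → ∃ δ,
      IsBranch ch.o (crv z'.2.1) δ ∧ δ 0 = z'.2.1.p (nq () q') ∧
        Nrm.Fac (fun t => apV z'.2.2.1 (δ t)) (γ () q) := fun {q q'} j =>
    let ⟨δ, d1, d2, d3⟩ := b' () q'
    ⟨δ, d1, d2, d3.trans (Nrm.fac_of_J hC (k' _ _).1 (k _ _).1 j)⟩
  rcases d false with d1 | d1 <;> rcases d true with d2 | d2
  · exact (cross h' b' () (d1.trans d2.symm)).elim
  · exact (one hn h h' e hX hX' b fun _ q => by cases q; exacts [f d1, f d2]).imp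
      fun _ a => ⟨a.1, a.2.1, .inl a.2.2⟩
  · exact (one hn h h'.swp (e.trans h'.ηN_swp.symm) hX hX' b
      fun _ q => by cases q; exacts [f d2, f d1]).imp fun _ a => ⟨a.1, a.2.1, .inr a.2.2⟩
  · exact (cross h' b' () (d1.trans d2.symm)).elim

/-- **the two labels are different** -/
theorem Gl.not_swp (h : Gl z.1.2 z.2) (ha : IsUnit a) (h1 : θN a = 1) :
    actG Wg a z ≠ Ch.swp z := fun e => by
  have hs := isUnit_dupF (isUnit_θG ha)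
  obtain ⟨b, g, k, t⟩ := a
  obtain ⟨rfl, rfl⟩ : b = 1 ∧ t = 1 := θN_eq_one.1 h1
  have hg := (Cv.isUnit_iff.1 hs).1
  have e1 := congrArg (·.2.1) e
  have e2 : ∀ v, apV z.2.2.1 (apV g v) = apV z.2.2.1 v := fun v => funext fun i =>
    (DFunLike.congr_fun (congrFun (congrArg (·.2.2.1) e) i) (g i (v i))).symm.trans
      (congrArg (z.2.2.1 i) (inv_ap (hg i) _))
  obtain ⟨δ, d1, d2⟩ := exists_branch_p h.mem' (nq () true)
  obtain ⟨δ', d3, rfl⟩ := branch_act (x := scl _ z.2.1) hs (o := ch.o) (γ := δ)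
    ((congrArg (fun y => IsBranch ch.o (crv y) δ) e1).mpr d1)
  have e3 : δ' 0 = z.2.1.p (nq () false) := funext fun i =>
    (ContinuousLinearMap.isUnit_iff_bijective.1 (hg i)).1 ((congrFun d2 i).trans
      ((congrFun (congrArg (W.p · (nq () false)) e1) i).symm.trans (one_smul ℂ _)))
  refine cross h (γ := fun _ _ t => apV z.2.2.1 (δ' t)) (fun _ q => ?_) () rfl
  cases q
  · exact ⟨_, d3, e3, dc_refl _⟩
  · exact ⟨_, d1, d2, (funext fun t => e2 (δ' t)) ▸ dc_refl _⟩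

theorem isAct_actN {Z : Set (ch.WG n ν κ ε Λ)} (h : Ivt (actG Wg : ch.AG n ν κ ε S → _) Z) :
    IsAct (actN Wg : (ch.re n).A Empty → _) Z :=
  ⟨fun z _ => (isAct_actG (Wg := Wg)).one z trivial, fun s t hs ht z _ =>
    (congrArg (actG Wg · z) (ιN_mul s t)).trans
      ((isAct_actG (Wg := Wg)).mul _ _ (isUnit_ιN hs) (isUnit_ιN ht) z trivial),
    fun _ hs => h _ (isUnit_ιN hs), fun s hs z _ =>
    have k := A.an_iff.1 (analyticAt_fst (𝕜 := ℂ) (p := (s, z)))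
    an_actG (a := fun p : (ch.re n).A Empty × ch.WG n ν κ ε Λ => ιN p.1)
      (AP.an_iff.2 ⟨analyticAt_const (v := (1 : ch.AF ν κ S)),
        A.an_iff.2 ⟨k.1, k.2.1, analyticAt_const (v := (1 : ε → ι → ℂ))⟩⟩)
      analyticAt_snd (isUnit_ιN hs)⟩

theorem Gl.fre_actN (hn : ch.GN n Unit) (h : Gl z.1.2 z.2) :
    Fre (actN Wg : (ch.re n).A Empty → _) z := fun _ hs e =>
  have k := h.free hn (isUnit_ιN hs) rfl e
  Prod.ext (congrArg (·.2.1) k) (Prod.ext (congrArg (·.2.2.1) k) (funext fun q => q.elim))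

theorem OL.fib (hn : ch.GN n Unit) (hA : F.Abs) (hz : z ∈ ch.OL n F O) :
    GB.Fib (actN F.toWt : (ch.re n).A Empty → _) (ch.OL n F O) ηN z := fun U hU => by
  choose! a ha using fun (p : ch.WG n ν κ Unit Λ × ch.WG n ν κ Unit Λ)
    (k : p.1 ∈ ch.OL n F O ∧ p.2 ∈ ch.OL n F O ∧ ηN p.1 = ηN p.2) =>
    Gl.two (Wg := F.toWt) hn k.1.1.1.1 k.2.1.1.1.1 k.2.2 (OL.X_eq hA k.1) (OL.X_eq hA k.2.1)
  have key : ∀ {f : ch.WG n ν κ Unit Λ → ch.WG n ν κ Unit Λ} {P : ch.AG n ν κ Unit S → Prop},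
      ContinuousAt f z → Gl (f z).1.2 (f z).2 →
      (∀ b, IsUnit b → θN b = 1 → actG F.toWt b z = f z → ∀ᶠ c in 𝓝 b, P c) →
      ∀ᶠ p in 𝓝 (z, z), (p.1 ∈ ch.OL n F O ∧ p.2 ∈ ch.OL n F O ∧ ηN p.1 = ηN p.2) ∧
        actG F.toWt (a p) p.1 = f p.2 → P (a p) := fun {f P} hf hg hP => by
    let T := {p : ch.WG n ν κ Unit Λ × ch.WG n ν κ Unit Λ |
      (p.1 ∈ ch.OL n F O ∧ p.2 ∈ ch.OL n F O ∧ ηN p.1 = ηN p.2) ∧ actG F.toWt (a p) p.1 = f p.2}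
    refine (eventually_inf_principal (s := T)).1 ?_
    rcases Filter.eq_or_neBot (𝓝 (z, z) ⊓ 𝓟 T) with k | k
    · exact k ▸ eventually_bot
    have m : T ∈ 𝓝 (z, z) ⊓ 𝓟 T := mem_inf_of_right (mem_principal_self T)
    obtain ⟨b, b1, b2, b3, b4⟩ := NdA.lim (Wg := F.toWt) (a := a) hn hz.1.1.1 hg
      (mem_of_superset m fun p q => ⟨q.1.1.1.1.1, (ha p q.1).1, (ha p q.1).2.1⟩)
      (continuousAt_fst.mono_left inf_le_left)
      (((hf.tendsto.comp (continuous_snd.tendsto (z, z))).mono_left inf_le_left).congr'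
        (mem_of_superset m fun p q => q.2.symm))
    exact b4.eventually (hP b b1 b2 b3)
  have c : Continuous fun b : ch.AG n ν κ Unit S => ((b.2.1, b.2.2.1, 1) : (ch.re n).A Empty) :=
    continuous_snd.fst.prodMk (continuous_snd.snd.fst.prodMk continuous_const)
  filter_upwards [key (f := id) (P := fun b => ((b.2.1, b.2.2.1, 1) : (ch.re n).A Empty) ∈ U)
    continuousAt_id hz.1.1.1 fun b b1 b2 b3 =>
      hz.1.1.1.free hn b1 (θN_eq_one.1 b2).1 b3 ▸ c.continuousAt hU,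
    key (P := fun _ => False) (an_swp z).continuousAt hz.1.1.1.swp fun b b1 b2 b3 =>
      (hz.1.1.1.not_swp b1 b2 b3).elim] with p p1 p2 h1 h2 h3
  obtain ⟨a1, a2, a3⟩ := ha p ⟨h1, h2, h3⟩
  have a4 := a3.resolve_right fun k => p2 ⟨⟨h1, h2, h3⟩, k⟩
  have a5 := Cv.isUnit_iff.1 (AP.isUnit_iff.1 a1).2
  refine ⟨_, p1 ⟨⟨h1, h2, h3⟩, a4⟩, Cv.isUnit_iff.2 ⟨a5.1, a5.2.1, fun q => q.elim⟩,
    (congrArg (actG F.toWt · p.1) ?_).trans a4⟩
  exact Prod.ext (θN_eq_one.1 a2).1.symm (Prod.ext rfl (Prod.ext rfl (θN_eq_one.1 a2).2.symm))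

end Vale.Agent.P269.Ch
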