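import Vale.Agent.P287Q.G.Qrr.Nod
import Vale.Agent.P287Q.G.Bas.Lv
import Vale.Agent.P287Q.G.Grr.ChC
import Vale.Agent.P287Q.G.Grr.Deg
import Vale.Agent.P287Q.G.Prj.Tgt

/-!
# Smooth domains of the absolute theory; transfer to the virtual classes
-/

set_option linter.unusedSectionVars false

namespace Vale.Agent.P269

open P291Z Set Function Topology Filter Module Holo Base

/-- naturality of the classes of characters on orbifolds -/
theorem Tq.Eqh.map_lcqO {A A' W W' : Type} [NormedRing A] [NormedAlgebra ℂ A] [NormedAddCommGroup W]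
    [NormedSpace ℂ W] [NormedRing A'] [NormedAlgebra ℂ A'] [NormedAddCommGroup W']
    [NormedSpace ℂ W'] {act : A → W → W} {act' : A' → W' → W'} {S : Set W} {S' : Set W'}
    {θ : A → A'} {f : W → W'} [IsAct act S] [IsAct act' S'] (h : Tq.Eqh act act' S S' θ f)
    (ho : Orb.Orb Aˣ (Holo.Sp act S)) (ho' : Orb.Orb A'ˣ (Holo.Sp act' S')) {c : A' → ℂ}
    (hc : Tq.Hm c) {c' : A → ℂ} (e : ∀ a, IsUnit a → c' a = c (θ a)) :
    H.map h.toEqv.qm (Tq.lcq act' S' c) = Tq.lcq act S c' := by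
  let m : Ch.Mor (Ch.spA ho) (Ch.spA ho') :=
    ⟨h.hm.ρ.toMonoidHom, fun x => Holo.Sp.of act' (f x.val) (h.maps x.val_mem), h.hm.ρ.continuous,
      (h.cont.domRestrict.subtype_mk _ :), fun g x => Holo.Sp.ext (h.eqv _ g.isUnit _ x.val_mem)⟩
  have a : m.map = h.toEqv.qm :=
    (DFunLike.coe_injective (m.map_eq (φ := h.toEqv.qm) fun _ => rfl)).symm
  rw [Tq.lcq_eq (Ch.presA ho') (χ := hc.ρ) fun _ => rfl,
    Tq.lcq_eq (Ch.presA ho) (χ := m.chr hc.ρ) fun g => (e _ g.isUnit).symm, ← a]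
  exact (congrArg _ (H.map_id (fun _ => rfl) _)).trans
    ((congrArg Subtype.val (Ch.map_c1 m hc.ρ)).trans (H.map_id (fun _ => rfl) _).symm)

theorem Ch.KD.Gd.vr_map {A W P : Type} [NormedRing A] [NormedAlgebra ℂ A] [NormedAddCommGroup W]
    [NormedSpace ℂ W] [AddCommGroup P] [Module ℂ P] [TopologicalSpace P] [IsTopologicalAddGroup P]
    [ContinuousSMul ℂ P] [T2Space P] [FiniteDimensional ℂ A] [FiniteDimensional ℂ W]
    {act : A → W → W} {Z O : Set W} {D : Ch.KD A W P} {n r : ℕ} (h : D.Gd act Z O n r)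
    (c : H (Quo act O)) (β : BM (Quo act O)) : D.vr act Z O (cap c β) =
      cap (H.map (Ch.EqM.incl (act := act) h.dom.sub).map c) (D.vr act Z O β) := by
  obtain ⟨a, b, rfl⟩ := hcls_surj c
  rw [H.map_hcls _ b]
  exact h.vr_cap b β

namespace Ch

variable {S Λ R J K ν κ ι : Type} [Fintype S] [Fintype Λ] [Fintype R] [Fintype J] [Fintype K]
  [Fintype ν] [Fintype κ] [Fintype ι] [DecidableEq ι] {ch : Ch ι J}

theorem hm_chC (a : ι → ℤ) : Tq.Hm fun s : ch.AU ν κ S => ∏ i, s.2 i ^ a i :=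
  ⟨Finset.prod_eq_one fun _ _ => one_zpow _, fun s t _ _ => prod_zpow_mul s.2 t.2 a,
    fun s hs => (an_prod_zpow (t := fun s : ch.AU ν κ S => s.2) (q := s) analyticAt_snd
      (isUnitU_iff.1 hs).2 a).continuousAt⟩

theorem hm_chS (a : S → ℤ) : Tq.Hm fun s : ch.AU ν κ S => ∏ i, s.1.1 i ^ a i :=
  ⟨Finset.prod_eq_one fun _ _ => one_zpow _, fun s t _ _ => prod_zpow_mul s.1.1 t.1.1 a,
    fun s hs => (an_prod_zpow (t := fun s : ch.AU ν κ S => s.1.1) (q := s)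
      (analyticAt_fst.comp analyticAt_fst) (ne_S (isUnitU_iff.1 hs).1) a).continuousAt⟩

/-- `O` is a smooth domain of dimension `d` for `S₀` over which the nodes are smoothed. -/
structure SDm (F : Fam S Λ R J K) (e : K → ι → ℕ) (ℓ : R → ι → ℤ) (S₀ O : Set (ch.WF ν κ Λ))
    (d n r : ℕ) : Prop where
  num : Num₀ ch
  gz : GZ F ℓ (ch.solF ν κ F ∩ S₀)
  ver : Ver F.B O
  gd : (ch.kd ν κ F e).Gd (actF F.toWt) (ch.solF ν κ F ∩ S₀) O n r
  opn : ∃ U, IsOpen U ∧ O = S₀ ∩ U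
  str : Str (actF F.toWt) O d
  den : Den F.toWt O
  vir : virF F e S₀ = (ch.kd ν κ F e).vr (actF F.toWt) _ O (gd.fu d)

variable {F : Fam S Λ R J K} {e : K → ι → ℕ} {K₀ : RD R} {ℓ : R → ι → ℤ}
  {S₀ O U : Set (ch.WF ν κ Λ)} {b d n r : ℕ}

theorem main_abs (hA : F.Abs) {u : ν → J → ℕ} : ch.main κ F u = ch.adm ν κ F :=
  Set.ext fun _ => and_iff_left fun _ a b => (b (hA.1 a)).elim

theorem Cuts.cyc_abs (hc : ch.Cuts) (hF : F.Inv) (hA : F.Abs) {u : ν → J → ℕ} :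
    ch.cyc κ F u = ch.adm ν κ F :=
  (hc.cyc_subset_adm hF u).antisymm fun _ a => ⟨subset_closure ((main_abs hA).ge a), a.1⟩

theorem Ok.sdm (h : ch.Ok F e K₀ ℓ b U) (hA : F.Abs) {u : ν → J → ℕ} (hv : Vm F e u U d) :
    ∃ n r, SDm F e ℓ (ch.cyc κ F u) (ch.cyc κ F u ∩ U ∩ ch.dom ν κ F e) d n r := by
  obtain ⟨n, a⟩ := hv.gd h.toStd
  obtain ⟨U', h1, h2⟩ := hv.dom.opn
  have c := h.cuts.cyc_abs h.inv hA (ν := ν) (κ := κ) (u := u)
  refine ⟨n, _, h.num, hv.gz h.toStd, (ver_adm hA).opn ⟨U', h1, c ▸ h2⟩, a, ⟨U', h1, h2⟩, ?_, ?_,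
    hv.virF_vr h.toStd⟩
  · have := hv.cyc.toStr
    rwa [main_abs hA, ← c] at this
  · rw [h2]
    exact h.pr.den' (lev_cyc h.inv h.cuts u) h1 fun _ k => (h2.ge k).1.2

namespace SDm

variable (h : SDm F e ℓ S₀ O d n r)
include h

theorem base : ∀ x ∈ O, x.2 ∈ ch.base (Mk ν κ) := h.ver.base

theorem mf : KD.Mf (ch.AF ν κ S) O d := fun x hx => ⟨hx, h.str.mfd ⟨x, hx⟩⟩

theorem gdC : (ch.kdC ν κ F e).Gd (actC F.toWt) (unv (ch.solF ν κ F ∩ S₀)) (unv O) n r :=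
  h.num.cuts.gd_unv h.base h.gd

theorem gdN : (ch.kdC ν κ F e).Gd (actC F.toWt) (nod (ch.solF ν κ F ∩ S₀)) (nod O) n r :=
  h.num.cuts.gd_nod h.base h.gd

/-- restriction to the moduli space -/
noncomputable abbrev rF : C(ModS F S₀, Quo (actF F.toWt) O) := (EqM.incl h.gd.dom.sub).map

/-- restriction to the universal curve -/
noncomputable abbrev rC : C(ModC F S₀, Quo (actC F.toWt) (unv O)) := (EqM.incl h.gdC.dom.sub).map

/-- restriction to the nodes -/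
noncomputable abbrev rN : C(ModN F S₀, Quo (actC F.toWt) (nod O)) := (EqM.incl h.gdN.dom.sub).map

/-- the virtual pull-back -/
noncomputable abbrev vr (_ : SDm F e ℓ S₀ O d n r) :
    BM (Quo (actF F.toWt) O) →ₗ[ℂ] BM (ModS F S₀) :=
  (ch.kd ν κ F e).vr (actF F.toWt) _ O

theorem virC_eq : virC F e S₀ =
    (ch.kdC ν κ F e).vr (actC F.toWt) _ (unv O) (h.gdC.fu (d + 1)) :=
  have m := h.num.mf_unv h.ver h.mf
  ((Classical.epsilon_spec ⟨_, h.gdC.isV (unv_opn h.opn) (h.gdC.isFund_fu m)⟩ :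
    (ch.kdC ν κ F e).IsV _ _ _ (virC F e S₀)).isW h.gdC (unv_opn h.opn)
      (h.num.str_unv h.ver h.str)).eq_vr h.gdC (unv_opn h.opn) m

theorem virN_eq : virN F e S₀ =
    (ch.kdC ν κ F e).vr (actC F.toWt) _ (nod O) (h.gdN.fu (d - 1)) :=
  h.num.virN_eq h.ver h.gd h.opn h.mf h.den

theorem cap_res (c : H (Quo (actF F.toWt) O)) :
    cap (H.map h.rF c) (virF F e S₀) = h.vr (cap c (h.gd.fu d)) := by
  rw [h.vir, h.gd.vr_map]

/-- **transfer** of integrals along the fibres -/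
theorem pshC_res (c : H (Quo (actC F.toWt) (unv O))) : pshC F e S₀ (H.map h.rC c) =
    h.vr (push (prC _ O) (cap c (h.gdC.fu (d + 1)))) := by
  rw [pshC, h.virC_eq, ← h.gdC.vr_map, h.num.cuts.push_vrC h.base h.gd]

/-- **transfer** of integrals over the nodes -/
theorem pshN_res (c : H (Quo (actC F.toWt) (nod O))) : pshN F e S₀ (H.map h.rN c) =
    h.vr (push (prC _ O ∘ inN _ O) (cap c (h.gdN.fu (d - 1)))) := by
  rw [pshN, h.virN_eq, ← h.gdN.vr_map, h.num.cuts.push_vrN h.base h.gd]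

theorem lcq_res {c : ch.AU ν κ S → ℂ} (hc : Tq.Hm c) :
    H.map h.rC (Tq.lcq (actC F.toWt) (unv O) c) = Tq.lcq (actC F.toWt) _ c :=
  haveI := h.gdC.dom.isAct
  haveI := h.gdC.isActZ
  (Tq.Eqh.incl h.gdC.dom.sub).map_lcqO h.gdC.orbZ h.gdC.dom.orb hc fun _ _ => rfl

theorem oC_res (a : ι → ℤ) : H.map h.rC (oC F.toWt O a) = oC F.toWt _ a := h.lcq_res (hm_chC a)

theorem lC_res (j : J) : H.map h.rC (Grr.lC F.toWt O j) = Grr.lC F.toWt _ j :=
  h.lcq_res ((hm_chS _).mul' (hm_chC _))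

theorem isEmpty_unv (h3 : ¬3 ≤ ch.M ch.o) : IsEmpty (Quo (actC F.toWt) (unv O)) :=
  ⟨fun z => (Grr.crv_empty h.num h.ver h3 z.out.2.1).le z.out.2.2⟩

/-- **the degree of `O(a)` on the fibres** -/
theorem deg (a : ι → ℤ) : push (prC _ O) (cap (oC F.toWt O a) (h.gdC.fu (d + 1))) =
    ((∑ i, a i * ch.m i : ℤ) : ℂ) • h.gd.fu d := by
  have := h.gd.dom.isAct
  by_cases h3 : 3 ≤ ch.M ch.o
  · obtain ⟨_, q⟩ := (Grr.isCh_cfF h.gd.dom.orb h.mf h.num h.ver h3).exists_pC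
    have p := Grr.holP_hoF h.gd.dom.orb h.mf
    exact Grr.degQ' (fun s => congrArg Prod.snd (q.u s)) (fun x => congrArg Prod.fst (q.i x))
      p.push_fnd (q.holP p).push_fnd a
  rcases O.eq_empty_or_nonempty with rfl | ⟨x, hx⟩
  · have : IsEmpty (Quo (actF F.toWt) (∅ : Set (ch.WF ν κ Λ))) := ⟨fun z => z.out.2⟩
    exact Orb.BM_eq_of_isEmpty _ _
  · have := h.isEmpty_unv h3
    rw [Orb.BM_eq_of_isEmpty (cap _ _) 0, map_zero]
    simp [(h.num.empty (h.base x hx) (Grr.crv_empty h.num h.ver h3 hx)).2.1]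

theorem pshC_oC (a : ι → ℤ) :
    pshC F e S₀ (oC _ _ a) = ((∑ i, a i * ch.m i : ℤ) : ℂ) • virF F e S₀ := by
  rw [← h.oC_res, h.pshC_res, h.deg, map_smul, h.vir]

end SDm

end Ch

theorem Fam.Nice.sdm {S Λ R J K ν κ : Type} [Fintype S] [Fintype Λ] [Fintype R] [Fintype J]
    [Fintype K] [Fintype ν] [Fintype κ] [DecidableEq R] {F : Fam S Λ R J K} {k : ℕ} (h : F.Nice 0)
    (hA : F.Abs) (hk : F.Big k) (g : ℤ) (d : R → ℤ) : ∀ᶠ D in atTop, F.BigD k D ∧ ∃ O m n r,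
      Ch.SDm F (F.tdeg (F.sch ν κ k D g d)) ℓs (F.cy0 ν κ k D g d) O m n r :=
  let ⟨_, _, _, _, a⟩ := h.vd κ hk g d (0 : ν → ℕ)
  a.mono fun _ ⟨b, _, _, c, f⟩ => ⟨b, _, _, c.sdm hA (u := 0) (by
    rwa [show (fun m => (0 : ν → ℕ) m • (0 : J → ℕ)) = 0 from funext fun _ => smul_zero _] at f)⟩

end Vale.Agent.P269
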