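import Vale.Agent.P287Q.G.Qrr.NdD
import Vale.Agent.P269.Glu.Fnd
import Vale.Agent.P269.Glu.VrA
import Vale.Agent.P287Q.G.Glu.Pcy
import Vale.Agent.P269.Map.Gy

/-!
# Double coverings of orbifolds
-/

set_option linter.unusedSectionVars false
set_option linter.style.haveILetI false

namespace Vale.Agent.P269.Dbl

open P291Z Set Function Topology Filter Holo Ch Ch.KD

variable {A A' W W' P : Type} [NormedRing A] [NormedAlgebra ℂ A] [NormedAddCommGroup W]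
  [NormedSpace ℂ W] [NormedRing A'] [NormedAlgebra ℂ A'] [NormedAddCommGroup W'] [NormedSpace ℂ W']
  [FiniteDimensional ℂ A] [FiniteDimensional ℂ W] [FiniteDimensional ℂ A'] [FiniteDimensional ℂ W']
  [AddCommGroup P] [Module ℂ P] [TopologicalSpace P] [IsTopologicalAddGroup P] [ContinuousSMul ℂ P]
  [T2Space P] {act : A → W → W} {act' : A' → W' → W'} {O Z S : Set W} {O' Z' S' : Set W'}
  {θ : CL A' A} {f : W' → W} {τ : W' → W'} {d n r : ℕ} [IsAct act O] [IsAct act' O']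
  (h : Dbl act' act O' O θ f τ)
include h

theorem fre {z : W'} (hz : z ∈ O') (hf : Fre act (f z)) : Fre act' z := fun a ha e =>
  (h.free z hz a ha (hf _ (h.toEqM.isUnit ha) (by rw [← h.eqv a ha z hz, e]))).1 e

theorem str (hs : Str act O d) (hm : Mf A' O' d) : Str act' O' d := by
  refine ⟨IsAct.mem, fun x => (hm x x.2).2, fun z hz => ?_⟩
  obtain ⟨σ, h1, h2, h3⟩ := h.sec z hz
  have h4 : Tendsto σ (𝓝 (f z)) (𝓝 z) := by
    have := h1.continuousAt.tendsto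
    rwa [h2] at this
  refine mem_closure_of_frequently_of_tendsto (((mem_closure_iff_frequently.1
    (hs.free (h.maps hz))).and_eventually (eventually_nhdsWithin_iff.1 h3)).mono ?_) h4
  rintro y ⟨⟨a, b⟩, c⟩
  exact ⟨(c a).1, h.fre (c a).1 ((c a).2.symm ▸ b)⟩

/-- the fibre over an orbit -/
theorem fib' {z w : W'} (hz : z ∈ O') (hw : w ∈ O') {b : A} (hb : IsUnit b)
    (e : act b (f w) = f z) : ∃ a, IsUnit a ∧ (act' a w = z ∨ act' a w = τ z) := by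
  obtain ⟨a, h1, rfl⟩ := h.usurj b hb
  obtain ⟨a', h2, h3⟩ := h.fib _ (IsAct.mem a h1 w hw) z hz ((h.eqv a h1 w hw).trans e)
  exact ⟨a' * a, h2.mul h1, by rwa [IsAct.mul (act := act') (S := O') a' a h2 h1 w hw]⟩

theorem isPr (ho : Orb.Orb Aˣ (Holo.Sp act O)) : IsPr h.toEqM.map := by
  haveI := nice_of_orb ho
  haveI := ho.nice
  refine ⟨h.toEqM.map.continuous, fun K hK => ?_⟩
  suffices ∃ L, IsCompact L ∧ h.toEqM.map ⁻¹' K ⊆ L from
    let ⟨_, a, b⟩ := this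
    a.of_isClosed_subset (hK.isClosed.preimage h.toEqM.map.continuous) b
  refine hK.induction_on ⟨∅, isCompact_empty, by simp⟩
    (fun _ _ e ⟨L, a, b⟩ => ⟨L, a, (preimage_mono e).trans b⟩)
    (fun _ _ ⟨L, a, b⟩ ⟨L', a', b'⟩ => ⟨L ∪ L', a.union a', union_subset_union b b'⟩) fun y _ => ?_
  obtain ⟨x, rfl⟩ := Holo.Sp.surjective_mk y
  obtain ⟨z, hz, e⟩ := h.surj x.val_mem
  obtain ⟨σ, h1, -, h3⟩ := h.sec z hz
  rw [e] at h1 h3
  have h4 : ∀ᶠ y : Holo.Sp act O in 𝓝 x, ContinuousAt σ y.val ∧ σ y.val ∈ O' ∧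
      f (σ y.val) = y.val :=
    ((Holo.Sp.continuous_val.continuousAt.eventually h1.eventually_analyticAt).mono
      fun _ a => a.continuousAt).and ((tendsto_nhdsWithin_iff.2
        ⟨Holo.Sp.continuous_val.continuousAt, .of_forall Holo.Sp.val_mem⟩).eventually h3)
  obtain ⟨V, h5, h6, h7⟩ := local_compact_nhds h4
  haveI := isCompact_iff_compactSpace.1 h7
  have c0 : Continuous fun v : V => σ v.1.val := continuous_iff_continuousAt.2 fun v =>
    ContinuousAt.comp (f := fun v : V => v.1.val) (h6 v.2).1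
      (Holo.Sp.continuous_val.comp continuous_subtype_val).continuousAt
  have c1 : Continuous fun v : V => Holo.Sp.of act' _ (h6 v.2).2.1 :=
    Holo.Sp.isEmbedding_val.continuous_iff.2 c0
  have c2 : Continuous fun v : V => Holo.Sp.of act' _ (h.memτ (h6 v.2).2.1) :=
    Holo.Sp.isEmbedding_val.continuous_iff.2 (continuous_iff_continuousAt.2 fun v =>
      ContinuousAt.comp (f := fun v : V => σ v.1.val) (h.anτ _ (h6 v.2).2.1).continuousAt
        c0.continuousAt)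
  refine ⟨Holo.Sp.mk '' V, mem_nhdsWithin_of_mem_nhds
    (Holo.Sp.isOpenQuotientMap_mk.isOpenMap.image_mem_nhds h5), _,
    (isCompact_range (Holo.Sp.continuous_mk.comp c1)).union
      (isCompact_range (Holo.Sp.continuous_mk.comp c2)), ?_⟩
  rintro w ⟨v, hv, k⟩
  obtain ⟨w, rfl⟩ := Holo.Sp.surjective_mk w
  obtain ⟨g, hg⟩ := (Holo.Sp.mk_eq_iff (x := Holo.Sp.of act _ (h.maps w.val_mem))).1 k.symm
  obtain ⟨_, ⟨a, rfl⟩, k1 | k1⟩ := h.fib' (h6 hv).2.1 w.val_mem g.isUnit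
    ((congrArg Holo.Sp.val hg).trans (h6 hv).2.2.symm)
  · exact .inl ⟨⟨v, hv⟩, ((Holo.Sp.mk_eq_iff (x := w) (y := Holo.Sp.of act' _ (h6 hv).2.1)).2
      ⟨a, Holo.Sp.ext k1⟩).symm⟩
  · exact .inr ⟨⟨v, hv⟩, ((Holo.Sp.mk_eq_iff (x := w)
      (y := Holo.Sp.of act' _ (h.memτ (h6 hv).2.1))).2 ⟨a, Holo.Sp.ext k1⟩).symm⟩

omit h in
theorem cyc (hs : Str act O d) : Cyc act O O d :=
  ⟨⟨hs, (pcy_self fun x hx => ⟨hx, hs.mfd ⟨x, hx⟩⟩).lc, subset_rfl,
    ⟨univ, isOpen_univ, (inter_univ _).symm⟩, sdiff_self (a := O) ▸ dimLt_empty _⟩, subset_closure⟩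

theorem ne {z : W'} (hz : z ∈ O') (hf : Fre act (f z)) {a : A'} (ha : IsUnit a) :
    act' a z ≠ τ z := fun e =>
  (h.free z hz a ha (hf _ (h.toEqM.isUnit ha) (by rw [← h.eqv a ha z hz, e, h.fτ z hz]))).2 e

/-- **the degree is two** -/
theorem push_fnd (ho : Orb.Orb Aˣ (Holo.Sp act O)) (ho' : Orb.Orb A'ˣ (Holo.Sp act' O'))
    (hs : Str act O d) (hm : Mf A' O' d) :
    push h.toEqM.map (fnd act' O' d) = (2 : ℂ) • fnd act O d := by
  refine (Cyc.push_fnd h.toEqM (fun x hx => ⟨f, h.an x hx, .of_forall fun _ _ => rfl⟩) ho ho'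
    (cyc hs) (cyc (h.str hs hm)) (h.isPr ho) (m := 2) (G := {x | Fre act x}) hs.free
    fun x hx => ⟨hx.2, ?_⟩).trans (by rw [Nat.cast_ofNat])
  obtain ⟨z, hz, rfl⟩ := h.surj hx.1
  obtain ⟨σ, h1, h2, h3⟩ := h.sec z hz
  have hf : Fre act (f z) := hx.2
  have hf' : Fre act (f (τ z)) := (h.fτ z hz).symm ▸ hf
  refine ⟨![σ, fun y => τ (σ y)], Fin.forall_fin_two.2 ⟨⟨h1, ?_, h3⟩, ?_, ?_, ?_⟩,
    Fin.forall_fin_two.2 ⟨Fin.forall_fin_two.2 ⟨fun _ _ _ => rfl, fun a ha e => ?_⟩,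
      Fin.forall_fin_two.2 ⟨fun a ha e => ?_, fun _ _ _ => rfl⟩⟩, fun w hw b hb e => ?_⟩
  · show Fre act' (σ (f z))
    rw [h2]
    exact h.fre hz hf
  · exact AnalyticAt.comp (g := τ) (by rw [h2]; exact h.anτ z hz) h1
  · show Fre act' (τ (σ (f z)))
    rw [h2]
    exact h.fre (h.memτ hz) hf'
  · exact h3.mono fun y a => ⟨h.memτ a.1, (h.fτ _ a.1).trans a.2⟩
  · have e' : act' a (σ (f z)) = τ (σ (f z)) := e
    rw [h2] at e'
    exact (h.ne hz hf ha e').elim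
  · have e' : act' a (τ (σ (f z))) = σ (f z) := e
    rw [h2] at e'
    exact (h.ne (h.memτ hz) hf' ha (e'.trans (h.ττ z hz).symm)).elim
  · obtain ⟨a, ha, k | k⟩ := h.fib' hz hw hb e
    · exact ⟨0, a, ha, k.trans h2.symm⟩
    · exact ⟨1, a, ha, k.trans (congrArg τ h2.symm)⟩

/-- **the degree is two on virtual classes** -/
theorem push_isV {D : KD A W P} (g : D.Gd act Z O n r) (ho' : Orb.Orb A'ˣ (Holo.Sp act' O'))
    (hs : Str act O d) (hm : Mf A' O' d) (hS : ∃ U, IsOpen U ∧ O = S ∩ U)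
    (hS' : ∃ U, IsOpen U ∧ O' = S' ∩ U) (hZ : Z' = O' ∩ f ⁻¹' Z) {v : BM (Quo act Z)}
    {v' : BM (Quo act' Z')} (hv : D.IsV act Z S v) (hv' : (D.pb θ f).IsV act' Z' S' v')
    (hz : EqM act' act Z' Z θ f) : IsPr hz.map ∧ push hz.map v' = (2 : ℂ) • v := by
  have g' : (D.pb θ f).Gd act' Z' O' n r :=
    ⟨⟨hZ.le.trans inter_subset_left, ⟨univ, isOpen_univ, (inter_univ _).symm⟩, ‹_›, ho',
      fun x hx => (g.dom.zero _ (h.maps hx)).trans (hZ ▸ (and_iff_right hx).symm)⟩,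
      g.ok.pb' h.toEqM⟩
  have hm₀ : Mf A O d := fun x hx => ⟨hx, hs.mfd ⟨x, hx⟩⟩
  obtain ⟨h1, h2⟩ := g.vr_push h.toEqM g' (h.isPr g.dom.orb) hz.maps (fnd act' O' d)
  refine ⟨h1, ?_⟩
  rw [(hv.isW g hS hs).eq_vr g hS hm₀, (hv'.isW g' hS' (h.str hs hm)).eq_vr g' hS' hm]
  refine h2.trans ?_
  rw [h.push_fnd g.dom.orb ho' hs hm, map_smul]
  rfl

end Vale.Agent.P269.Dbl
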