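import Vale.Agent.P287Q.G.Qrr.Stm
import Vale.Agent.P287Q.G.Spl.Num

/-!
# Splitting off the component of a marked point: the statement for fixed markings
-/

set_option linter.unusedSectionVars false

namespace Vale.Agent.P269

open P291Z Set Function Filter

/-- The component of the marked point `φ (inl a)` has genus `g₁`, degree `d₁` and carries exactly
the marked points `ν₁`. -/
def St.PRc : Prop :=
  ∀ {Λ R J K ν ν₁ ν₂ β : Type} [Fintype Λ] [Fintype R] [Fintype J] [Fintype K] [Fintype ν]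
    [Fintype ν₁] [Fintype ν₂] [DecidableEq R] (F : Fam Empty Λ R J K) (δ : J → ℕ) (l) (k : ℕ)
    (g g₁ g₂ : ℤ) (d d₁ d₂ : R → ℤ) (φ : ν₁ ⊕ ν₂ ≃ ν) (u : ν → ℕ) (a : ν₁) (Θ) (T : Finset β) (Θ₁ Θ₂)
    (fs₁ : List (Fac F.toWt ν₁ (Fin 0))) (fs₂ : List (Fac F.toWt ν₂ (Fin 0))),
    F.Nice δ → F.B = {l} → F.Big k → g₁ + g₂ = g + 1 → d₁ + d₂ = d → Qrr.Cop Θ T Θ₁ Θ₂ →
    (∀ f ∈ fs₁, f.Ok F (fun n => u (φ (.inl n)) • δ) ∧ f.NoTw) →
    (∀ f ∈ fs₂, f.Ok F (fun n => u (φ (.inr n)) • δ) ∧ f.NoTw) →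
    F.inv k g d (fun n => u n • δ)
        (fun m => m.CTyp (m.p (.inl (φ (.inl a)))) g₁ d₁ (range fun n => .inl (φ (.inl n))))
        (.tw Θ :: (fs₁.map (Fac.re (φ ∘ .inl) id) ++ fs₂.map (Fac.re (φ ∘ .inr) id))) =
      ∑ t ∈ T, F.inv k g₁ d₁ (fun n => u (φ (.inl n)) • δ) (fun m => m.Conn) (.tw (Θ₁ t) :: fs₁) *
        F.inv k g₂ d₂ (fun n => u (φ (.inr n)) • δ) (fun _ => True) (.tw (Θ₂ t) :: fs₂)

end Vale.Agent.P269
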