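import Vale.Agent.P287Q.G.Glu.PrCn
import Vale.Agent.P287Q.G.Glu.PrNum
import Vale.Agent.P287Q.G.Qrr.Fac
import Vale.Agent.P287Q.G.Fg.UcA

set_option linter.unusedSectionVars false
set_option linter.style.haveILetI false

/-!
# Decompositions whose first part is connected: integrals
-/

namespace Vale.Agent.P269

open P291Z Set Function Topology Filter Module

namespace PrN

variable {L M M' : Type} [TopologicalSpace L] [TopologicalSpace M] [TopologicalSpace M']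

/-- the integral over a closed and open part -/
theorem ev_part [Nice M] [CompactSpace M] [CompactSpace L] {Ψ : C(L, M)} (hΨ : IsOpenEmbedding Ψ)
    {A : Set M} (hA : IsClosed A) (e : range Ψ = A) (v : BM M) {c : Coch M} (hc : supp (δ c) = ∅) :
    ev v (ind A * c) = Loc.intg (res Ψ v) (H.map Ψ (hcls c)) := by
  have c' := cocycle_mul (cocycle_ind ⟨hA, e ▸ hΨ.isOpen_range⟩) hc
  rw [H.map_hcls _ hc, Loc.intg_hcls _ (cocycle_pull Ψ.continuous hc),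
    ← Orb.ev_res hΨ v ⟨(isClosed_supp _).isCompact, c'⟩, map_mul, pull_ind, ← e, preimage_range,
    Qrr.Fc.ind_univ, one_mul]
  refine fun x hx => e.ge (by_contra fun k => notMem_supp.2 ⟨_, hA.isOpen_compl.mem_nhds k,
    fun l hl => if_neg ?_⟩ (supp_mul _ _ hx).1)
  rintro ⟨y, hy, rfl⟩
  exact hl y List.mem_cons_self hy

theorem ev_one [CompactSpace M] (p : C(M, M')) (v : BM M) {c : Coch M} (hc : supp (δ c) = ∅) :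
    ev v (pull p (rep 1) * c) = ev v c := by
  have k := Qrr.Fc.cocycle_rep (1 : H M')
  have k' := cocycle_pull p.continuous k
  rw [← Loc.intg_hcls v (cocycle_mul k' hc), ← Loc.intg_hcls v hc, hcls_mul k' hc,
    ← H.map_hcls p k, Qrr.Fc.hcls_rep, map_one, one_mul]

/-- the integral over a part of a fibre product over a point -/
theorem ev_two {X₁ X₂ : Type} [TopologicalSpace X₁] [TopologicalSpace X₂] [Nice X₁] [Nice X₂]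
    [Nice M] [Nice M'] [CompactSpace X₁] [CompactSpace X₂] [CompactSpace L] {Φ : C(M, X₁ × X₂)}
    (hΦ : IsClosedEmbedding Φ) (p₁ : C(X₁, M')) (p₂ : C(X₂, M')) {Δ : Coch (M' × M')} {n : ℕ}
    (hΔ : IsCo (range fun y => (y, y)) n Δ) (hr : range Φ = {x | p₁ x.1 = p₂ x.2})
    (h : hcls Δ = ∑ _q : Unit, H.map .fst 1 * H.map .snd 1) (v₁ : BM X₁) (v₂ : BM X₂)
    {i : L → M} (hi : IsOpenEmbedding i) {A : Set X₁} (hA : IsClopen A)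
    (e : range i = (fun x => (Φ x).1) ⁻¹' A) {f₁ : C(L, X₁)} {f₂ : C(L, X₂)}
    (e₁ : ∀ x, f₁ x = (Φ (i x)).1) (e₂ : ∀ x, f₂ x = (Φ (i x)).2) {c₁ : Coch X₁} {c₂ : Coch X₂}
    (h₁ : supp (δ c₁) = ∅) (h₂ : supp (δ c₂) = ∅) :
    Loc.intg (res i (gys Φ (pull (Prod.map p₁ p₂) Δ) (cross Prod.fst Prod.snd v₁ v₂)))
      (H.map f₁ (hcls c₁) * H.map f₂ (hcls c₂)) = ev v₁ (ind A * c₁) * ev v₂ c₂ := by
  haveI := hΦ.compactSpace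
  have c₃ := cocycle_mul (cocycle_ind hA) h₁
  have k₁ := cocycle_pull Φ.continuous.fst h₁
  have k₂ := cocycle_pull Φ.continuous.snd h₂
  have u := ev_gys_cross (e := fun _ : Unit => 1) (f := fun _ => 1) hΦ p₁ p₂ hΔ hr
    (fun _ => ⟨one_mem _, one_mem _⟩) h v₁ v₂ ⟨(isClosed_supp _).isCompact, c₃⟩
    ⟨(isClosed_supp _).isCompact, h₂⟩
  rw [Fintype.sum_unique, ev_one _ _ c₃, ev_one _ _ h₂, map_mul, pull_ind, mul_assoc,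
    ev_part (Ψ := ⟨i, hi.continuous⟩) hi (hA.1.preimage Φ.continuous.fst) e _ (cocycle_mul k₁ k₂),
    hcls_mul k₁ k₂, map_mul, H.map_hcls _ k₁, H.map_hcls _ k₂, pull_pull, pull_pull] at u
  rw [← u, H.map_hcls _ h₁, H.map_hcls _ h₂, show ⇑f₁ = _ from funext e₁,
    show ⇑f₂ = _ from funext e₂]
  rfl

end PrN

namespace Ch

open Base Cv Holo Vir KD PowerSeries

variable {S Λ R J K ι ν κ ν₁ κ₁ ν₂ κ₂ : Type} [Fintype S] [Fintype Λ] [Fintype R] [Fintype J]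
  [Fintype K] [Fintype ι] [DecidableEq ι] [Fintype ν] [Fintype κ]
  [Fintype ν₁] [Fintype κ₁] [Fintype ν₂] [Fintype κ₂] {ch : Ch ι J} {n₁ n₂ : Nm ι J}
  {s : Sv ν κ ν₁ κ₁ ν₂ κ₂} {F : Fam S Λ R J K} {e : K → ι → ℕ} {K₀ : RD R} {ℓ : R → ι → ℤ}

theorem GZ.hcls_tw [IsEmpty κ] {Z : Set (ch.WF ν κ Λ)} (h : GZ F ℓ Z) (Θ : MvPolynomial (J × ℕ) ℂ)
    {fs : List (Fac F.toWt ν κ)} (hf : ∀ f ∈ fs, f.At Z) :
    supp (δ ((.tw Θ :: fs).map (F.coch Z)).prod) = ∅ ∧ hcls ((.tw Θ :: fs).map (F.coch Z)).prod =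
      (Qrr.evC (indC F.toWt Z) Θ).1 * (fs.map (F.cl Z)).prod := by
  obtain ⟨a, b⟩ := Qrr.Fc.hcls_prod (l := (.tw Θ :: fs).map (F.coch Z)) (List.forall_mem_map.2
    fun f k => h.cocycle0 (List.forall_mem_cons.2 ⟨trivial, hf⟩ f k))
  rw [List.map_map, List.map_cons, List.prod_cons] at b
  exact ⟨a, b.trans (congrArg₂ (· * ·) (Fam.cl_tw Θ) rfl)⟩

theorem GZ.map_evC {Z : Set (ch.WF ν κ Λ)} {Y : Type} [TopologicalSpace Y]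
    (Ψ : C(Y, Quo (actF F.toWt) Z)) (Θ : MvPolynomial (J × ℕ) ℂ) :
    H.map Ψ (Qrr.evC (indC F.toWt Z) Θ).1 =
      (Qrr.evC (fun j => PowerSeries.map (Hev.map Ψ).toRingHom (indC F.toWt Z j)) Θ).1 := by
  rw [← Hev.coe_map, Qrr.evC, Qrr.evC, MvPolynomial.comp_aeval_apply]
  simp only [PowerSeries.coeff_map]
  rfl

theorem GZ.const_map {Z : Set (ch.WF ν κ Λ)} (h : GZ F ℓ Z) {Y : Type} [TopologicalSpace Y]
    (Ψ : C(Y, Quo (actF F.toWt) Z)) (j : J) :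
    constantCoeff (PowerSeries.map (Hev.map Ψ).toRingHom (indC F.toWt Z j)) = 1 := by
  rw [← coeff_zero_eq_constantCoeff_apply, coeff_map, coeff_zero_eq_constantCoeff_apply,
    h.constCoeff_indC, map_one]

theorem GZ.map_re [IsEmpty κ] [IsEmpty κ₁] {ch' : Ch ι J} {Z : Set (ch.WF ν κ Λ)}
    {Z' : Set (ch'.WF ν₁ κ₁ Λ)} (hZ : GZ F ℓ Z) (hZ' : GZ F ℓ Z') {Y : Type} [TopologicalSpace Y]
    {Ψ : C(Y, Quo (actF F.toWt) Z)} {Φ : C(Y, Quo (actF F.toWt) Z')} {a : ν₁ → ν} {b : κ₁ → κ}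
    (pts : ∀ y, ∃ (x : Z) (x' : Z'), Ψ y = Quo.mk _ x ∧ Φ y = Quo.mk _ x' ∧ x.1.1 = x'.1.1 ∧
      ∀ n, vl x.1 (n.map a (Prod.map b id)) = vl x'.1 n)
    (hψ : ∀ n : Mk ν₁ κ₁, H.map Ψ (hcls (psiF (n.map a (Prod.map b id)))) = H.map Φ (hcls (psiF n)))
    {fs : List (Fac F.toWt ν₁ κ₁)} (hf : ∀ f ∈ fs, f.At Z' ∧ f.NoTw)
    (hA : ∀ f ∈ fs.map (Fac.re a b), f.At Z) :
    H.map Ψ ((fs.map (Fac.re a b)).map (F.cl Z)).prod = H.map Φ (fs.map (F.cl Z')).prod := by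
  rw [map_list_prod, map_list_prod, List.map_map, List.map_map, List.map_map]
  refine congrArg _ (List.map_congr_left fun f k => ?_)
  have c := hA _ (List.mem_map_of_mem k)
  have c' := hZ'.cocycle0 (hf f k).1
  exact (H.map_hcls Ψ (hZ.cocycle0 c)).trans (((hZ.cohom_re hZ' pts hψ (hf f k).2 c
    (hf f k).1).hcls_eq (cocycle_pull Φ.continuous c')).trans (H.map_hcls Φ c').symm)

/-- the integrand on the labelled space -/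
theorem CQ.map_tw [IsEmpty κ] [IsEmpty κ₁] [IsEmpty κ₂] {Y : Set (ch.WQ n₁ n₂ ν κ ν₁ κ₁ ν₂ κ₂ Λ)}
    (hY : Y ⊆ CQ s) {T : Set (ch.WF ν κ Λ)} {T₁ : Set ((ch.re n₁).WF ν₁ κ₁ Λ)}
    {T₂ : Set ((ch.re n₂).WF ν₂ κ₂ Λ)} (g : GZ F ℓ T) (g₁ : GZ F ℓ T₁) (g₂ : GZ F ℓ T₂)
    (m : MapsTo Prod.fst Y T) (m₁ : MapsTo pt₁ Y T₁) (m₂ : MapsTo pt₂ Y T₂) (hN : ch.QN n₁ n₂)
    {Θ : MvPolynomial (J × ℕ) ℂ} {β : Type} {I : Finset β} {Θ₁ Θ₂ : β → MvPolynomial (J × ℕ) ℂ}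
    (hC : Qrr.Cop Θ I Θ₁ Θ₂) {fs₁ : List (Fac F.toWt ν₁ κ₁)} {fs₂ : List (Fac F.toWt ν₂ κ₂)}
    (a₁ : ∀ f ∈ fs₁, f.At T₁ ∧ f.NoTw) (a₂ : ∀ f ∈ fs₂, f.At T₂ ∧ f.NoTw)
    (a₀ : ∀ f ∈ fs₁.map (Fac.re (s.φ ∘ .inl) (s.ψ ∘ .inl)) ++
      fs₂.map (Fac.re (s.φ ∘ .inr) (s.ψ ∘ .inr)), f.At T) :
    H.map (eqM_fstQ (s := s) (Wg := F.toWt) m).map (hcls ((.tw Θ ::
      (fs₁.map (Fac.re (s.φ ∘ .inl) (s.ψ ∘ .inl)) ++
        fs₂.map (Fac.re (s.φ ∘ .inr) (s.ψ ∘ .inr)))).map (F.coch T)).prod) =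
      ∑ t ∈ I, H.map (eqM_pt₁ (Wg := F.toWt) hY m₁).map
          (hcls ((.tw (Θ₁ t) :: fs₁).map (F.coch T₁)).prod) *
        H.map (eqM_pt₂ (Wg := F.toWt) hY m₂).map
          (hcls ((.tw (Θ₂ t) :: fs₂).map (F.coch T₂)).prod) := by
  obtain ⟨p₁, p₂, p₃⟩ := CQ.cls hY g.toOZ g₁.toOZ g₂.toOZ m m₁ m₂ hN
  have r₁ := g.map_re g₁ (Ψ := (eqM_fstQ (s := s) (Wg := F.toWt) m).map)
    (Φ := (eqM_pt₁ (Wg := F.toWt) hY m₁).map) (a := s.φ ∘ .inl) (b := s.ψ ∘ .inl)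
    (Quot.ind fun z => ⟨_, _, rfl, rfl, rfl, fun n => (CQ.vl₁ (hY z.2) (g.sol (m z.2)) n).symm⟩)
    p₁ a₁ (List.forall_mem_append.1 a₀).1
  have r₂ := g.map_re g₂ (Ψ := (eqM_fstQ (s := s) (Wg := F.toWt) m).map)
    (Φ := (eqM_pt₂ (Wg := F.toWt) hY m₂).map) (a := s.φ ∘ .inr) (b := s.ψ ∘ .inr)
    (Quot.ind fun z => ⟨_, _, rfl, rfl, rfl, fun n => (CQ.vl₂ (hY z.2) (g.sol (m z.2)) n).symm⟩)
    p₂ a₂ (List.forall_mem_append.1 a₀).2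
  rw [(g.hcls_tw Θ a₀).2, map_mul, GZ.map_evC, funext p₃,
    hC _ _ _ (g₁.const_map _) (g₂.const_map _), List.map_append, List.prod_append, map_mul, r₁, r₂,
    AddSubmonoidClass.coe_finsetSum, Finset.sum_mul]
  refine Finset.sum_congr rfl fun t _ => ?_
  rw [(g₁.hcls_tw _ fun f hf => (a₁ f hf).1).2, (g₂.hcls_tw _ fun f hf => (a₂ f hf).1).2, map_mul,
    map_mul, GZ.map_evC, GZ.map_evC, Subalgebra.coe_mul, mul_assoc, mul_assoc]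
  exact congrArg _ ((mul_assoc _ _ _).symm.trans ((congrArg (· * _)
    (Hev.commute (Subtype.prop _) _)).trans (mul_assoc _ _ _)))

variable {b b' N₁ N₂ d : ℕ} {U₁ Z₁ : Set ((ch.re n₁).WF ν₁ κ₁ Λ)}
  {U₂ Z₂ : Set ((ch.re n₂).WF ν₂ κ₂ Λ)} {Z O M : Set (ch.WF ν κ Λ)}

/-- **the product formula for a connected component in a chart** -/
theorem QZ.num [IsEmpty κ] [IsEmpty κ₁] [IsEmpty κ₂]
    (h : QZ s F e K₀ ℓ b b' U₁ Z₁ U₂ Z₂ N₁ N₂ Z O M d) [CompactSpace (F.Bs F.B)]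
    (hu : F.CasB F.B (fun _ : Unit => 1) fun _ => 1) [CompactSpace (ModS F (clo F Z))]
    [CompactSpace (ModS F (clo F Z₁))] [CompactSpace (ModS F (clo F Z₂))] (a : Mk ν₁ κ₁)
    {A : Set (ModS F (clo F Z))} {A₁ : Set (ModS F (clo F Z₁))} (hA : IsClopen A)
    (hA₁ : IsClopen A₁) (eA : range (eqM_fstQ (s := s) (Wg := F.toWt) h.maps).map = A)
    (eA₁ : ∀ z : LQ s F (clo F Z₁) (clo F Z₂), (eqL₁ s F _ _).map (Quo.mk _ z) ∈ A₁ ↔ z.1 ∈ Cn)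
    {Θ : MvPolynomial (J × ℕ) ℂ} {β : Type} {T : Finset β} {Θ₁ Θ₂ : β → MvPolynomial (J × ℕ) ℂ}
    (hC : Qrr.Cop Θ T Θ₁ Θ₂) {fs₁ : List (Fac F.toWt ν₁ κ₁)} {fs₂ : List (Fac F.toWt ν₂ κ₂)}
    (a₁ : ∀ f ∈ fs₁, f.At ((ch.re n₁).solF ν₁ κ₁ F ∩ clo F Z₁) ∧ f.NoTw)
    (a₂ : ∀ f ∈ fs₂, f.At ((ch.re n₂).solF ν₂ κ₂ F ∩ clo F Z₂) ∧ f.NoTw)
    (a₀ : ∀ f ∈ fs₁.map (Fac.re (s.φ ∘ .inl) (s.ψ ∘ .inl)) ++
      fs₂.map (Fac.re (s.φ ∘ .inr) (s.ψ ∘ .inr)), f.At (ch.solF ν κ F ∩ clo F Z)) :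
    ev (virF F e (clo F Z)) (ind A * ((.tw Θ :: (fs₁.map (Fac.re (s.φ ∘ .inl) (s.ψ ∘ .inl)) ++
        fs₂.map (Fac.re (s.φ ∘ .inr) (s.ψ ∘ .inr)))).map (F.coch _)).prod) =
      ∑ t ∈ T, ev (virF F e (clo F Z₁)) (ind A₁ * ((.tw (Θ₁ t) :: fs₁).map (F.coch _)).prod) *
        ev (virF F e (clo F Z₂)) ((.tw (Θ₂ t) :: fs₂).map (F.coch _)).prod := by
  haveI := h.bs.isAct
  haveI := h.bs.nice
  haveI := h.nice₁
  haveI := h.nice₂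
  haveI := h.vd.nice h.std
  obtain ⟨Δ, hΔ⟩ := h.bs.exists_isDB
  obtain ⟨i, r⟩ := h.isClosedEmbedding s
  haveI := Nice.of_isEmbedding i.isEmbedding i.isClosed_range.isLocallyClosed
  obtain ⟨p, q, k⟩ := h.res_eq hΔ a
  have g := h.vd.gz h.std
  have g₁ := h.vd₁.gz h.ok₁.toStd
  have g₂ := h.vd₂.gz h.ok₂.toStd
  haveI : CompactSpace (Quo (actQ s F.toWt : ch.AQ n₁ n₂ ν κ S → _) (LC s F Z₁ Z₂)) :=
    ⟨q.isInducing.isCompact_iff.2 (by rw [image_univ, eA]; exact hA.1.isCompact)⟩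
  have m₁ : MapsTo pt₁ (LC s F Z₁ Z₂) _ := (eqL₁ s F _ _).maps.mono_left inter_subset_left
  have m₂ : MapsTo pt₂ (LC s F Z₁ Z₂) _ := (eqL₂ s F _ _).maps.mono_left inter_subset_left
  have hZ : LC s F Z₁ Z₂ ⊆ CQ s := fun _ a => a.1.1.1
  refine (PrN.ev_part q hA.1 eA _ (g.hcls_tw Θ a₀).1).trans ((congrArg₂ (fun v c => Loc.intg v c)
    k.symm (CQ.map_tw hZ g g₁ g₂ h.maps m₁ m₂ h.qn hC a₁ a₂ a₀)).trans ((map_sum _ _ _).trans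
      (Finset.sum_congr rfl fun t _ => ?_)))
  refine PrN.ev_two i _ _ hΔ.co r (h.bs.hcls_eq hΔ hu) _ _ p hA₁ (Set.ext (Quot.ind fun z => ?_))
    (f₁ := (eqM_pt₁ (Wg := F.toWt) hZ m₁).map) (f₂ := (eqM_pt₂ (Wg := F.toWt) hZ m₂).map)
    (Quot.ind fun _ => rfl) (Quot.ind fun _ => rfl) (g₁.hcls_tw _ fun f hf => (a₁ f hf).1).1
    (g₂.hcls_tw _ fun f hf => (a₂ f hf).1).1
  refine ⟨?_, fun a => ⟨Quo.mk _ ⟨z.1, z.2, (eA₁ z).1 a⟩, rfl⟩⟩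
  rintro ⟨y, hy⟩
  rw [← hy]
  exact Quot.inductionOn y fun x => (eA₁ ⟨x.1, x.2.1⟩).2 x.2.2

end Ch

end Vale.Agent.P269
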