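import Vale.Agent.P287Q.G.Qrr.PrC
import Vale.Agent.P287Q.G.WK.PrS
import Vale.Agent.P269.LG.Sub
import Vale.Agent.P287Q.G.Bas.Num
import Vale.Agent.P287Q.G.Bas.Rel
import Vale.Agent.P287Q.G.Bas.SpA

/-!
# Splitting off the component of the first marked point: the sum over the markings
-/

set_option linter.unusedSectionVars false

namespace Vale.Agent.P269

open P291Z Set Function Filter Fock Qrr LG

variable {S Λ R J K ν ν' κ V : Type} [Fintype S] [Fintype Λ] [Fintype R] [Fintype J] [Fintype K]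
  [Fintype ν] [Fintype ν'] [Fintype κ] [DecidableEq R] [AddCommGroup V] [Module ℂ V]

/-- The sum over disjoint selectors. -/
theorem Fam.Iv.sum (hA : St.Add) {F : Fam S Λ R J K} {δ : J → ℕ} {k : ℕ} {g : ℤ} {d : R → ℤ}
    {u : ν → ℕ} {fs : List (Fac F.toWt ν κ)} (h : F.Iv δ k g d u (fun _ => True) fs) {α : Type}
    {Q : α → AM Λ R J ν κ → Prop} (hQ : ∀ a m m', m.Same m' → Q a m → Q a m')
    (hu : ∀ m a b, Q a m → Q b m → a = b) (s : Finset α) :
    F.inv k g d (fun n => u n • δ) (fun m => ∃ a ∈ s, Q a m) fs =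
      ∑ a ∈ s, F.inv k g d (fun n => u n • δ) (Q a) fs := by
  classical
  induction s using Finset.induction_on with
  | empty =>
    exact by_contra fun e => let ⟨_, _, _, _, _, a, _⟩ :=
      (St.supp F δ k g d u _ fs h.nice h.big e).1; Finset.notMem_empty _ a
  | insert a s ha ih =>
    rw [hA F δ k g d u _ _ fs h.nice h.cp h.big (.of_same fun _ _ e ⟨a, b, c⟩ =>
      ⟨a, b, hQ _ _ _ e c⟩) (.of_same (hQ a)) h.ok h.dg, Finset.sum_insert ha, ← ih]
    congr 2 <;> refine funext fun m => propext ?_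
    · exact ⟨fun e => e.2, fun e => ⟨⟨a, Finset.mem_insert_self _ _, e⟩, e⟩⟩
    · exact ⟨fun ⟨⟨b, c, e⟩, f⟩ => ⟨b, (Finset.mem_insert.1 c).resolve_left fun i => f (i ▸ e), e⟩,
        fun ⟨b, c, e⟩ => ⟨⟨b, Finset.mem_insert_of_mem c, e⟩, fun f => ha (hu m _ _ e f ▸ c)⟩⟩

namespace PrQ

variable {F : Fam Empty Λ R J K} {k : ℕ} {p : Par ℂ V} (i : V →ₗ[ℂ] H (F.X F.cone))

/-- Descendant insertions at labelled points. -/
noncomputable def ins (r : ν → ℕ) (L : List (ν × V)) : List (Fac F.toWt ν (Fin 0)) :=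
  (L.map fun x => List.replicate (r x.1) (.psi (.inl x.1)) ++
    [.ev (.inl x.1) F.cone (i x.2)]).flatten

theorem ins_re (a : ν → ν') (r : ν' → ℕ) (L : List (ν × V)) :
    (ins i (r ∘ a) L).map (Fac.re a id) = ins i r (L.map (Prod.map a id)) := by
  simp only [ins, List.map_flatten, List.map_map, comp_def, List.map_append, List.map_replicate]
  rfl

theorem ins_append (r : ν → ℕ) (L L' : List (ν × V)) :
    ins i r (L ++ L') = ins i r L ++ ins i r L' := by
  rw [ins, List.map_append, List.flatten_append]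
  rfl

theorem ok_ins (r : ν → ℕ) (L : List (ν × V)) (u) :
    ∀ f ∈ ins i r L, (f.Ok F u ∧ f.NoTw) ∧ f.dq = none := by
  simp only [ins, List.forall_mem_flatten, List.forall_mem_map, List.forall_mem_append,
    List.forall_mem_replicate, List.forall_mem_singleton]
  exact fun _ _ => ⟨.inr ⟨⟨trivial, trivial⟩, rfl⟩, ⟨fun _ h => h.1, trivial⟩, rfl⟩

theorem clL_ins {ι : Type} [Fintype ι] [DecidableEq ι] {ch : Ch ι J} {ℓ : R → ι → ℤ}
    {Z : Set (ch.WF ν (Fin 0) Λ)} (h : Ch.GZ F ℓ Z) (Θ) (r : ν → ℕ) (L : List (ν × V)) :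
    F.clL Z (.tw Θ :: ins i r L) = F.cl Z (.tw Θ) * (L.map fun x =>
      (Num.insL h (.inl x.1) (fun _ a => Ch.vl_mem (h.sol a) _) (r x.1) ∘ₗ i) x.2).prod ∧
    F.clL Z (.tw Θ :: .par univ 1 :: ins i r L) = F.clL Z (.tw Θ :: ins i r L) := by
  have e : (ins i r L).filterMap Fac.dq = [] :=
    List.filterMap_eq_nil_iff.2 fun f hf => (ok_ins i r L 0 f hf).2
  refine ⟨?_, Fam.clL_congr rfl ?_⟩
  · rw [Fam.clL_eq (by rw [List.filterMap_cons_none rfl, e]; exact List.nodup_nil)]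
    simp only [ins, List.map_cons, List.prod_cons, List.map_flatten, List.prod_flatten,
      List.map_map, comp_def, List.map_append, List.map_replicate, List.prod_append,
      List.prod_replicate, List.map_nil, List.prod_nil, mul_one]
    exact congrArg (fun f => _ * (L.map f).prod)
      (funext fun x => Num.ins_eq h _ (fun _ a => Ch.vl_mem (h.sol a) _) (r x.1, i x.2))
  · have : F.cn Z (.par univ 1 : Fac F.toWt ν (Fin 0)) = 1 :=
      (h.cl_par (A := univ) (fun _ _ => trivial) 1).trans (map_one _)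
    simp only [List.map_cons, List.prod_cons, this, one_mul]

variable (h : F.One k) {g : ℤ} {d : R → ℤ} {P : AM Λ R J ν (Fin 0) → Prop}
  (hP : F.Sel k g d 0 P) (Θ : MvPolynomial (J × ℕ) ℂ) (r : ν → ℕ)
include h hP

theorem iv (L : List (ν × V)) : F.Iv 0 k g d 0 P (.tw Θ :: ins i r L) :=
  ⟨h.nice, h.cp, h.big, hP, List.forall_mem_cons.2 ⟨trivial, fun f a => (ok_ins i r L _ f a).1.1⟩,
    fun q => q.elim0⟩

theorem inv_par (L : List (ν × V)) : F.inv k g d 0 P (.tw Θ :: .par univ 1 :: ins i r L) =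
    F.inv k g d 0 P (.tw Θ :: ins i r L) := by
  have a := iv i h hP Θ r L
  have b : F.Iv 0 k g d 0 P (.tw Θ :: .par univ 1 :: ins i r L) :=
    ⟨h.nice, h.cp, h.big, hP, List.forall_mem_cons.2 ⟨trivial, List.forall_mem_cons.2
      ⟨subset_univ _, (List.forall_mem_cons.1 a.ok).2⟩⟩, fun q => q.elim0⟩
  refine Fam.inv_eq_inv ?_
  filter_upwards [a.intg_eq St.dg, b.intg_eq St.dg, a.lvl] with D c e f
  exact e.trans ((congrArg (fun t => F.itg _ (_ * t)) (clL_ins i f.gz Θ r L).2).trans c.symm)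

variable {i} in
theorem sw (hW : St.Well) (hi : IsEv p (parH _) i) :
    SW p fun L => F.inv k g d 0 P (.tw Θ :: ins i r L) := by
  have e := fun L => (iv i h hP Θ r L).nf hW St.dg
  refine Num.sw_of_eventually ((F.eventually_bigD k).mono fun D a => ?_) e
  have z := h.nice.gz (Fin 0) h.big a g d (0 : ν → ℕ)
  have b := fun (n : ν) x a => Ch.vl_mem (x := x) (z.sol a) (.inl n)
  simp only [(clL_ins i z Θ r _).1, ← mul_assoc]
  exact Num.sw_of_isEv (fun n => Num.insL z (.inl n) (b n) (r n) ∘ₗ i)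
    (fun n v => (Num.isEv_insL z _ (b n) _ _).trans (congrArg _ (hi v))) _ _

omit hP in
variable {i} in
theorem ser_eq (hS : St.Spec) (hi : IsEv p (parH _) i) {P : ∀ ν κ : Type, AM Λ R J ν κ → Prop}
    (he : F.ExOk k ⟨P, Θ, univ, 1⟩) (j : ℤ) {L : List (ν × V)} (hL : Enum L) :
    F.ser0 k ⟨P, Θ, univ, 1⟩ p i d j (L.map fun x => ι _ (Finsupp.single (r x.1) x.2)).prod =
      F.inv k (j + 1) d 0 (P _ _) (.tw Θ :: ins i r L) := by
  obtain ⟨n, φ, v, rfl⟩ : ∃ (n : ℕ) (φ : Fin n ⊕ Fin 0 ≃ ν) (v : Fin n → V),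
    L = .ofFn fun s => (φ (.inl s), v s) := ⟨_, _, _, hL.exists_equiv.choose_spec⟩
  have s := he.sel (Fin n ⊕ Fin 0) (Fin 0) (j + 1) d 0
  have a := h.ser0_monF hS he hi d j fun s => (r (φ (.inl s)), v s)
  have b := inv_par i h s Θ (r ∘ φ) (.ofFn fun s => (.inl s, v s))
  have c := St.rel St.dg F 0 k (j + 1) d φ (.refl _) 0 _ _ _
    (iv i h s Θ (r ∘ φ) (.ofFn fun s => (.inl s, v s))) (he.re _ _ _ _ φ (.refl _))
  rw [List.map_cons, Equiv.coe_refl, ins_re, List.map_ofFn] at c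
  rw [List.map_ofFn]
  refine a.trans (Eq.trans ?_ (b.trans c.symm))
  rw [ins, List.map_ofFn]
  rfl

end PrQ

open PrQ in
/-- **Splitting off the component of the first marked point.** -/
theorem St.prQ_of (hC : St.PRc) (hW : St.Well) : St.PrQ := by
  classical
  intro Λ R J K _ _ _ _ _ F k V _ _ p i Θ β T Θ₁ Θ₂ h hi hc d d₁ j j₁ n₁ n f a v
  have hS : St.Spec := St.spec (St.cor hW (St.rel St.dg))
  obtain ⟨l, hl⟩ := h.pt
  obtain ⟨r, hr⟩ : ∃ r : Fin (n + 1) ⊕ Fin 0 → ℕ,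
    r = Sum.elim (fun s => (Fin.cons (α := fun _ => ℕ × V) (a, v) f s).1) 0 := ⟨_, rfl⟩
  obtain ⟨L, hL⟩ : ∃ L : List ((Fin (n + 1) ⊕ Fin 0) × V),
    L = .ofFn fun s => (.inl s.succ, (f s).2) := ⟨_, rfl⟩
  have e₀ : (.inl 0, v) :: L = .ofFn fun s =>
      (.inl s, (Fin.cons (α := fun _ => ℕ × V) (a, v) f s).2) := by
    rw [hL, List.ofFn_succ]; rfl
  have en : Enum ((.inl 0, v) :: L) := by
    rw [e₀, Enum, List.map_ofFn]
    exact ⟨List.nodup_ofFn.2 Sum.inl_injective, fun x => x.rec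
      (fun s => (List.mem_ofFn' _ _).2 ⟨s, rfl⟩) fun s => s.elim0⟩
  let Q : Finset (Fin (n + 1) ⊕ Fin 0) → AM Λ R J (Fin (n + 1) ⊕ Fin 0) (Fin 0) → Prop :=
    fun M m => M.card = n₁ ∧ m.CTyp (m.p (mk0 0)) (j₁ + 1) d₁ (Sum.inl '' (M : Set _))
  have hQ : ∀ M m m', m.Same m' → Q M m → Q M m' := fun _ _ _ e b => ⟨b.1, e.ctyp b.2⟩
  have z : ∀ {ν : Type} [Fintype ν] {g d} {P : AM Λ R J ν (Fin 0) → Prop} {fs}, (∀ m, ¬P m) →
      F.inv k g d 0 P fs = 0 := fun e => by_contra fun b =>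
    let ⟨_, _, _, _, c⟩ := (St.supp F 0 k _ _ 0 _ _ h.nice h.big b).1; e _ c
  let A : Bool → (Fin (n + 1) ⊕ Fin 0) → V →ₗ[ℂ] Fock.S ((p.fs ℕ).prod (p.fs ℕ)) := fun b x =>
    ι _ ∘ₗ (bif b then .inl ℂ _ _ else .inr ℂ _ _) ∘ₗ Finsupp.lsingle (r x)
  have e₁ : ι _ (Finsupp.single a v, 0) * Fock.map _ (Deg.isEv_diag (p.fs ℕ)) (monF p f) =
      A true (.inl 0) v * (L.map fun y => A true y.1 y.2 + A false y.1 y.2).prod := by
    simp [A, hL, hr, monF, map_list_prod, List.map_ofFn, comp_def, ← map_add]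
  have e₂ : F.corP k (fun m => ∃ M : Set _, M.ncard = n₁ ∧ m.CTyp (m.p (mk0 0)) (j₁ + 1) d₁ M) Θ d j
      (Fin.cons (a, i v) (Prod.map id i ∘ f)) = F.inv k (j + 1) d 0
      (fun m => ∃ M ∈ Finset.univ, Q M m) (.tw Θ :: .par univ 1 :: ins i r ((.inl 0, v) :: L)) := by
    rw [e₀, ins, List.map_ofFn, hr, show Fin.cons (α := fun _ => ℕ × H (F.X F.cone)) (a, i v)
      (Prod.map id i ∘ f) = Prod.map id i ∘ Fin.cons (a, v) f from (Fin.comp_cons (Prod.map id i) (a, v) f).symm]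
    refine congrArg (F.inv k _ d 0 · _) (funext fun m => propext ⟨fun ⟨M, b, c⟩ => ?_,
      fun ⟨M, _, b, c⟩ => ⟨_, by rwa [ncard_image_of_injective _ Sum.inl_injective,
        ncard_coe_finset], c⟩⟩)
    have e : Sum.inl '' ((Finset.univ.filter fun x => .inl x ∈ M : Finset _) : Set _) = M :=
      Set.ext fun x => x.rec (fun x => by simp) fun q => q.1.elim0
    refine ⟨_, Finset.mem_univ _, ?_, e.symm ▸ c⟩
    rw [← b, ← e, ncard_image_of_injective _ Sum.inl_injective, ncard_coe_finset, e]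
  rw [e₁, en.prod_cons (fun y => A true y.1 y.2) fun y => A false y.1 y.2, e₂,
    inv_par i h (.of_same fun _ _ e ⟨M, b, c⟩ => ⟨M, b, hQ _ _ _ e c⟩)]
  simp only [map_sum]
  rw [Finset.sum_comm]
  refine ((iv i h .top Θ r _).sum (St.add hW) hQ (fun m M M' b c => Finset.coe_injective
    (Sum.inl_injective.image_injective (b.2.unique c.2).2.2)) _).trans
    (Finset.sum_congr rfl fun M _ => ?_)
  split_ifs with hM
  swap
  · simp only [map_zero, Finset.sum_const_zero]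
    exact z fun m b => hM (by simpa using (b.2.2.2 _).1 (AC.mem_cmp_self _))
  have s := SW.sum T fun t _ => SW.of_sc (p := p) (fun x => A (decide (x ∈ M)) x)
    (fun x y v w e => (sc_ι _).ev _ _ (by cases decide (y ∈ M) <;> simp [e]))
    (fun x y v w e e' => (sc_ι _).od _ _ (by cases decide (x ∈ M) <;> simp [e])
      (by cases decide (y ∈ M) <;> simp [e']))
    (Deg.tp (F.ser0 k (F.exN n₁ (Θ₁ t)) p i d₁ j₁) (F.ser0 k (F.exT (Θ₂ t)) p i (d - d₁) (j - j₁))) 1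
  refine ((sw h (.of_same (hQ M)) Θ r hW hi).split s (Equiv.sumCompl (· ∈ M))
    (fun L₁ L₂ h₁ h₂ => ?_) en).trans (Finset.sum_congr rfl fun t _ => congrArg _ ?_)
  swap
  · rw [one_mul]
    exact congrArg _ (List.map_congr_left fun y _ => by by_cases c : y.1 ∈ M <;> simp [c])
  have e₃ : ∀ t, _ = _ := fun t => Deg.InB.tp_ap (F.ser0 k (F.exN n₁ (Θ₁ t)) p i d₁ j₁)
    (F.ser0 k (F.exT (Θ₂ t)) p i (d - d₁) (j - j₁))
    (L₁.map fun x => ι _ (Finsupp.single ((r ∘ Subtype.val) x.1) x.2)).prod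
    (L₂.map fun x => ι _ (Finsupp.single ((r ∘ Subtype.val) x.1) x.2)).prod
  have cd : Nat.card (Ch.Mk {x // x ∈ M} (Fin 0)) = M.card := by simp
  refine Eq.trans ?_ (Finset.sum_congr rfl fun t _ => ((e₃ t).symm.trans (congrArg _ ?_)))
  · simp only [Wt.exN, Wt.exT, ser_eq h _ _ hS hi (h.exOk_exN n₁ _) _ h₁,
      ser_eq h _ _ hS hi (h.exOk_exT _) _ h₂, cd, Q]
    by_cases c : M.card = n₁
    · simp only [c, and_true, true_and]
      rw [ins_append, ← ins_re, ← ins_re, image_eq_range]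
      exact hC F 0 l k (j + 1) (j₁ + 1) (j - j₁ + 1) d d₁ (d - d₁) (Equiv.sumCompl (· ∈ M)) 0
        ⟨_, hM⟩ Θ T Θ₁ Θ₂ _ _ h.nice hl h.big (by ring) (add_sub_cancel _ _) hc
        (fun f b => (ok_ins i _ _ _ f b).1) fun f b => (ok_ins i _ _ _ f b).1
    · simp only [c, and_false, false_and, z fun _ => id, zero_mul, Finset.sum_const_zero]
  · simp [A, map_list_prod, comp_def, fun x : {x // x ∉ M} => x.2]

end Vale.Agent.P269
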