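import Vale.Agent.P287Q.G.Glu.FpD
import Vale.Agent.P287Q.G.Fg.UcA
import Vale.Agent.P287Q.G.Qrr.Fac
import Vale.Agent.P287Q.G.Bas.NF
import Vale.Agent.P287Q.G.Qrr.Stm

/-!
# Integrals over an open and closed part of a product
-/

set_option linter.unusedSectionVars false
set_option linter.style.haveILetI false

namespace Vale.Agent.P269.PrGT

open P291Z Set Function Topology Filter Ch

variable {X Q M M₁ M₂ Y β : Type} [TopologicalSpace X] [TopologicalSpace Q] [TopologicalSpace M]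
  [TopologicalSpace M₁] [TopologicalSpace M₂] [TopologicalSpace Y]

theorem map_prod {α : Type} (f : C(X, M)) (f₁ : C(X, M₁)) {l : List α} {g : α → H M} {g₁ : α → H M₁}
    (h : ∀ a ∈ l, H.map f (g a) = H.map f₁ (g₁ a)) :
    H.map f (l.map g).prod = H.map f₁ (l.map g₁).prod := by
  rw [map_list_prod, map_list_prod, List.map_map, List.map_map]
  exact congrArg _ (List.map_congr_left h)

theorem alg {J : Type} (f : C(X, M)) (f₁ : C(X, M₁)) (f₂ : C(X, M₂)) {c : J → PowerSeries (Hev M)}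
    {c₁ : J → PowerSeries (Hev M₁)} {c₂ : J → PowerSeries (Hev M₂)} (k : ∀ j, PowerSeries.map (Hev.map f).toRingHom (c j) =
      PowerSeries.map (Hev.map f₁).toRingHom (c₁ j) * PowerSeries.map (Hev.map f₂).toRingHom (c₂ j))
    (h₁ : ∀ j, PowerSeries.constantCoeff (c₁ j) = 1) (h₂ : ∀ j, PowerSeries.constantCoeff (c₂ j) = 1)
    {Θ} {L : Finset β} {Θ₁ Θ₂} (hΘ : Qrr.Cop Θ L Θ₁ Θ₂) {x x' x₁ x₂}
    (a₁ : H.map f x = H.map f₁ x₁) (a₂ : H.map f x' = H.map f₂ x₂) :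
    H.map f ((Qrr.evC c Θ).1 * (x * x')) = ∑ t ∈ L,
      H.map f₁ ((Qrr.evC c₁ (Θ₁ t)).1 * x₁) * H.map f₂ ((Qrr.evC c₂ (Θ₂ t)).1 * x₂) := by
  have t : ∀ {Z : Type} [TopologicalSpace Z] (f : C(X, Z)) (c : J → PowerSeries (Hev Z)) (Θ),
      H.map f (Qrr.evC c Θ).1 =
        (Qrr.evC (fun j => PowerSeries.map (Hev.map f).toRingHom (c j)) Θ).1 :=
    fun f c Θ => congrArg Subtype.val (Qrr.map_evC (c := c) (Hev.map f) Θ)
  have u : ∀ {Z : Type} [TopologicalSpace Z] (f : C(X, Z)) (p : PowerSeries (Hev Z)),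
      PowerSeries.constantCoeff p = 1 →
        PowerSeries.constantCoeff (PowerSeries.map (Hev.map f).toRingHom p) = 1 := fun f p a => by
    rw [← PowerSeries.coeff_zero_eq_constantCoeff_apply, PowerSeries.coeff_map,
      PowerSeries.coeff_zero_eq_constantCoeff_apply, a, map_one]
  simp only [map_mul, a₁, a₂, t, k]
  rw [hΘ _ _ _ (fun j => u _ _ (h₁ j)) fun j => u _ _ (h₂ j), AddSubmonoidClass.coe_finsetSum,
    Finset.sum_mul]
  refine Finset.sum_congr rfl fun i _ => ?_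
  rw [Subalgebra.coe_mul, mul_assoc, mul_assoc, ← mul_assoc (_ : Hev X).1 (H.map f₁ x₁),
    Hev.commute (Subtype.prop _) (H.map f₁ x₁), mul_assoc]

variable [Nice Q] [Nice M] [Nice M₁] [Nice M₂] [Nice Y] [CompactSpace M] [CompactSpace M₁]
  [CompactSpace M₂]

theorem map_ind (f : C(X, Q)) {C : Set Q} (hC : IsClopen C) :
    H.map f (hcls (ind C)) = hcls (ind (f ⁻¹' C)) := by
  rw [H.map_hcls _ (cocycle_ind hC), pull_ind]

theorem intg_res [Nice X] [CompactSpace X] {Ψ : C(X, M)} (h : IsOpenEmbedding Ψ) (v : BM M) (c : H M) :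
    Loc.intg v (hcls (ind (range Ψ)) * c) = Loc.intg (res Ψ v) (H.map Ψ c) := by
  have k := LG.KB.clopen h
  rw [UcA.intg_res k.1 k.2 Ψ h Subset.rfl, map_mul, map_ind Ψ k, preimage_range, Qrr.Fc.ind_univ,
    hcls_one, one_mul]

variable {Φ : C(Q, M₁ × M₂)} (hΦ : IsClosedEmbedding Φ) {p₁ : C(M₁, Y)} {p₂ : C(M₂, Y)}
  {Δ : Coch (Y × Y)} {n : ℕ} (hΔ : IsCo (range fun y => (y, y)) n Δ)
  (hr : range Φ = {x | p₁ x.1 = p₂ x.2})
  (h1 : hcls Δ = ∑ _q : Unit, H.map .fst (1 : H Y) * H.map .snd 1) {v₁ : BM M₁} {v₂ : BM M₂}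
include hΦ hΔ hr h1

theorem intg_gys (a : H M₁) (b : H M₂) :
    Loc.intg (gys Φ (pull (Prod.map p₁ p₂) Δ) (cross Prod.fst Prod.snd v₁ v₂))
      (H.map (ContinuousMap.fst.comp Φ) a * H.map (ContinuousMap.snd.comp Φ) b) =
      Loc.intg v₁ a * Loc.intg v₂ b := by
  haveI := hΦ.compactSpace
  obtain ⟨a, ha, rfl⟩ := hcls_surj a
  obtain ⟨b, hb, rfl⟩ := hcls_surj b
  have k : ∀ {Z : Type} [TopologicalSpace Z] [CompactSpace Z] (p : C(Z, Y)) (v : BM Z) (c : Coch Z),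
      supp (δ c) = ∅ → ev v (pull p (rep 1) * c) = Loc.intg v (hcls c) := fun p v c hc => by
    have e := Qrr.Fc.cocycle_rep (1 : H Y)
    have e' := cocycle_pull p.continuous e
    rw [← Loc.intg_hcls _ (cocycle_mul e' hc), hcls_mul e' hc, ← H.map_hcls _ e, Qrr.Fc.hcls_rep,
      map_one, one_mul]
  have a1 := cocycle_pull (ContinuousMap.fst.comp Φ).continuous ha
  have a2 := cocycle_pull (ContinuousMap.snd.comp Φ).continuous hb
  rw [H.map_hcls _ ha, H.map_hcls _ hb, ← hcls_mul a1 a2, Loc.intg_hcls _ (cocycle_mul a1 a2)]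
  refine (ev_gys_cross hΦ p₁ p₂ hΔ hr (fun _ => ⟨one_mem _, one_mem _⟩) h1 v₁ v₂
    ⟨(isClosed_supp _).isCompact, ha⟩ ⟨(isClosed_supp _).isCompact, hb⟩).trans ?_
  rw [Fintype.sum_unique, k _ _ _ ha, k _ _ _ hb]

theorem main {i : C(X, Q)} {Ψ : C(X, M)} (hi : IsOpenEmbedding i) (hΨ : IsOpenEmbedding Ψ) {v : BM M}
    (hv : res i (gys Φ (pull (Prod.map p₁ p₂) Δ) (cross Prod.fst Prod.snd v₁ v₂)) = res Ψ v)
    {C : Set M₁} (hC : IsClopen C) (e : range i = ContinuousMap.fst.comp Φ ⁻¹' C) {T : Finset β}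
    {c : H M} {c₁ : β → H M₁} {c₂ : β → H M₂}
    (hc : H.map Ψ c = ∑ t ∈ T, H.map ((ContinuousMap.fst.comp Φ).comp i) (c₁ t) *
      H.map ((ContinuousMap.snd.comp Φ).comp i) (c₂ t)) :
    Loc.intg v (hcls (ind (range Ψ)) * c) =
      ∑ t ∈ T, Loc.intg v₁ (hcls (ind C) * c₁ t) * Loc.intg v₂ (c₂ t) := by
  haveI := hΦ.compactSpace
  haveI := Nice.of_isEmbedding hi.isEmbedding hi.isOpen_range.isLocallyClosed
  haveI : CompactSpace X := (IsClosedEmbedding.mk hi.isEmbedding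
    (e ▸ (hC.preimage (ContinuousMap.continuous _)).1)).compactSpace
  rw [intg_res hΨ, ← hv, hc, map_sum]
  refine Finset.sum_congr rfl fun t _ => ?_
  rw [← H.map_map i, ← H.map_map i, ← map_mul, ← intg_res hi, e, ← map_ind _ hC, ← mul_assoc, ← map_mul,
    intg_gys hΦ hΔ hr h1]

end Vale.Agent.P269.PrGT
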