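import Vale.Agent.P287Q.G.Bas.BC
import Vale.Agent.P287Q.G.Map.Psi
import Vale.Agent.P287Q.G.Map.Ind
import Vale.Agent.P269.Edg.Ind
import Vale.Agent.P269.Prj.Quo

/-!
# Tautological classes on a family with a fixed rational curve
-/

set_option linter.unusedSectionVars false
set_option linter.style.haveILetI false

namespace Vale.Agent.P269.Ch.ThP

open P291Z Set Function Topology Filter Base Cv PowerSeries Module Holo

variable {A A' W W' P : Type} [NormedRing A] [NormedAlgebra ℂ A] [NormedAddCommGroup W]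
  [NormedSpace ℂ W] [NormedRing A'] [NormedAlgebra ℂ A'] [NormedAddCommGroup W'] [NormedSpace ℂ W']
  [AddCommGroup P] [Module ℂ P] [TopologicalSpace P] [IsTopologicalAddGroup P]
  [ContinuousSMul ℂ P] [T2Space P] {act' : A' → W' → W'} {T : Set W'} {c : A' → ℂ}

section gen

variable {act : A → W → W} {S : Set W} {θ : A' → A} {f : W' → W}

theorem eqM (h : Tq.Eqh act' act T S θ f) : EqM act' act T S θ f :=
  ⟨⟨h.hm.ρ.toMonoidHom, h.hm.ρ.continuous, fun _ => rfl⟩, h.maps, h.cont, h.eqv⟩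

variable (W' c) in
/-- the line bundle of a character -/
@[reducible] def sdc : SD A' W' ℂ := ⟨fun t z => c t * z, ⊤, fun _ => ⊤, fun _ => ⊥⟩

theorem ok_sdc (hc : Tq.Hm c) : (sdc W' c).Ok act' T 1 0 :=
  ⟨inferInstance, ⟨fun _ _ _ _ => trivial, fun _ _ _ _ _ _ => mul_add .., fun _ _ _ _ _ =>
      mul_smul_comm .., fun _ _ => (congrArg (· * _) hc.one).trans (one_mul _),
      fun a b ha hb _ _ => (congrArg (· * _) (hc.mul a b ha hb)).trans (mul_assoc ..),
      fun _ _ => (Units.continuous_val.comp hc.ρ.continuous).mul continuous_const⟩,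
    ⟨fun _ _ => le_rfl, isClosed_univ, fun _ _ => (finrank_top _ _).trans (finrank_self _),
      fun _ _ _ _ _ _ => trivial⟩,
    ⟨fun _ _ => bot_le, isClosed_eq continuous_snd continuous_const, fun _ _ => finrank_bot _ _,
      fun _ _ _ _ _ e => mul_eq_zero_of_right _ e⟩, fun _ _ => bot_le⟩

theorem hom_sdc {E : SD A W P} {r r' : ℕ} (h : E.Ok act S r r') (hf : Tq.Eqh act' act T S θ f)
    {v : P} (mem : ∀ x ∈ T, v ∈ E.B (f x))
    (eqv : ∀ x ∈ T, ∀ a, IsUnit a → E.ρ (θ a) v = c a • v) :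
    (sdc W' c).Hom E act' T θ f fun _ => LinearMap.toSpanSingleton ℂ P v :=
  ⟨fun _ _ => continuousOn_const, fun x hx w _ => Submodule.smul_mem _ w (mem x hx),
    fun _ _ _ e => mem_of_eq_of_mem ((congrArg _ e).trans (map_zero _)) (zero_mem _),
    fun x hx a ha w _ => mem_of_eq_of_mem (sub_eq_zero.2 (show (c a * w) • v = E.ρ (θ a) (w • v) by
      rw [h.rep.smul _ (hf.hm.isUnit ha) _ _ (h.famB.le _ (hf.maps hx) (mem x hx)), eqv x hx a ha,
        mul_comm, mul_smul])) (zero_mem _)⟩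

variable [IsAct act' T] (ho : Orb.Orb A'ˣ (Holo.Sp act' T))
include ho

theorem lcq_one : Tq.lcq act' T (fun _ => 1) = 0 :=
  (Tq.lcq_eq (presA ho) (χ := 1) fun _ => rfl).trans (by rw [c1_one]; exact map_zero _)

theorem ch_sdc (hc : Tq.Hm c) {u : Hev (Quo act' T)} (hu : u.1 = Tq.lcq act' T c) :
    (sdc W' c).ch act' T = 1 + C u * X := by
  have h := ok_sdc (act' := act') (T := T) hc
  obtain ⟨_, V, _, _, -, h0, h1, -⟩ := h.exists_isMod ho
  refine PowerSeries.ext fun m => ?_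
  rcases m with _ | _ | m
  · simpa using h.constCoeff ho
  · simpa [coeff_one] using Subtype.ext ((h.coeff_top ho).trans hu.symm)
  · rw [SD.ch, SD.chernT_presA ho h1]
    exact ((V.coeff_chR _).trans (if_neg (by omega))).trans
      (show coeff (m + 1 + 1) (1 + C u * X : (Hev (Quo act' T))⟦X⟧) = 0 by simp [coeff_one]).symm

/-- a line bundle generated by an eigenvector -/
theorem map_eu [IsAct act S] (ho' : Orb.Orb Aˣ (Holo.Sp act S)) {E : SD A W P} {r : ℕ}
    (h : E.Ok act S (r + 1) r) (hf : Tq.Eqh act' act T S θ f) (hc : Tq.Hm c) {v : P}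
    (mem : ∀ x ∈ T, v ∈ E.B (f x)) (ne : ∀ x ∈ T, v ∉ E.N (f x))
    (eqv : ∀ x ∈ T, ∀ a, IsUnit a → E.ρ (θ a) v = c a • v) :
    H.map hf.toEqv.qm (hcls (E.eu act S)) = Tq.lcq act' T c := by
  have a := hom_sdc h hf mem eqv
  have i : (sdc W' c).Inj E T f fun _ => LinearMap.toSpanSingleton ℂ P v := fun x hx w _ e =>
    by_contra fun k => ne x hx ((Submodule.smul_mem_iff _ k).1 e)
  rw [H.map_hcls _ (h.cocycle ho')]
  exact ((ok_sdc hc).pull ho ho' h (eqM hf) a i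
    ((a.rank (ok_sdc hc) h hf.maps i).2 fun _ => by omega)).1.symm

/-- a surjection whose kernel is generated by an eigenvector -/
theorem ch_ker {P' : Type} [AddCommGroup P'] [Module ℂ P'] [TopologicalSpace P']
    [IsTopologicalAddGroup P'] [ContinuousSMul ℂ P'] [T2Space P'] {E : SD A' W' P}
    {E' : SD A' W' P'} {n r r' : ℕ} (h : E.Ok act' T n 0) (h' : E'.Ok act' T r r') (hc : Tq.Hm c)
    {v : P} (h0 : v ≠ 0) (mem : ∀ x ∈ T, v ∈ E.B x) (hN : ∀ x, E.N x = ⊥)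
    (eqv : ∀ x ∈ T, ∀ a, IsUnit a → E.ρ a v = c a • v) {L : W' → P →ₗ[ℂ] P'}
    (a : E.Hom E' act' T id id L) (ker : ∀ x ∈ T, ∀ w, L x w ∈ E'.N x ↔ w ∈ ℂ ∙ v)
    (hr : T.Nonempty → n + r' = r + 1) : E.ch act' T = (sdc W' c).ch act' T * E'.ch act' T := by
  have le : ∀ x ∈ T, ℂ ∙ v ≤ E.B x := fun x hx =>
    (Submodule.span_singleton_le_iff_mem _ _).2 (mem x hx)
  have k : SD.Ok ⟨E.ρ, E.P₀, E.B, fun _ => ℂ ∙ v⟩ act' T n 1 := by
    refine ⟨h.fin, h.rep, h.famB, ⟨fun x hx => (le x hx).trans (h.famB.le x hx),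
      (ℂ ∙ v).closed_of_finiteDimensional.preimage continuous_snd,
      fun _ _ => finrank_span_singleton h0, fun x hx s hs w e => ?_⟩, le⟩
    obtain ⟨z, rfl⟩ := Submodule.mem_span_singleton.1 e
    rw [h.rep.smul s hs _ _ (h.famB.le x hx (mem x hx)), eqv x hx s hs, smul_smul]
    exact Submodule.smul_mem _ _ (Submodule.mem_span_singleton_self _)
  have b : SD.Hom ⟨E.ρ, E.P₀, E.B, fun _ => ℂ ∙ v⟩ E' act' T id id L :=
    ⟨a.cont, a.mapB, fun x hx w e => (ker x hx w).2 e, a.eqv⟩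
  exact h.exact ho (ok_sdc hc) h' (hom_sdc h ⟨Tq.Hm.id, mapsTo_id _, continuousOn_id,
      fun _ _ _ _ => rfl⟩ mem eqv) a
    (fun x _ _ _ e => (smul_eq_zero.1 ((hN x).le e)).resolve_right h0)
    ((b.rank k h' (mapsTo_id _) fun x hx w _ e => (ker x hx w).1 e).2 hr)
    (fun x hx w _ => (ker x hx _).2 (Submodule.smul_mem _ w (Submodule.mem_span_singleton_self _)))
    fun e => by
      have := hr e
      omega

theorem ch_pb [IsAct act S] (ho' : Orb.Orb Aˣ (Holo.Sp act S)) {E : SD A W P} {r r' : ℕ}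
    (h : E.Ok act S r r') (hf : Tq.Eqh act' act T S θ f) : (E.pb θ f).ch act' T =
      PowerSeries.map (Hev.map hf.toEqv.qm).toRingHom (E.ch act S) :=
  ((h.pb (eqM hf)).pull_id h ho ho' (eqM hf) (fun _ _ => rfl) (fun _ _ => rfl)
    fun _ _ _ _ _ _ => rfl).2

end gen

variable {S Λ R J ι ν κ : Type} [Fintype S] [Fintype Λ] [Fintype R] [Fintype J] [Fintype ι]
  [DecidableEq ι] [Fintype ν] [Fintype κ] {ch : Ch ι J} {F : Wt S Λ R J} {Z : Set (ch.WF ν κ Λ)}
  {θ : A' → ch.AF ν κ S} {f : W' → ch.WF ν κ Λ} {q : Mk ν κ → OnePoint ℂ} {t : A' → ι → ℂ} {j : J}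

theorem sub_scal {μ : Type} [Fintype μ] {s : ch.A μ} {t : ι → ℂ} (h : ∀ i v, s.1 i v = t i • v)
    {a : ι → ℕ} (m : Tens ch.M a) : sub s _ m = chr a t • m := by
  refine ContinuousMultilinearMap.ext fun v => ?_
  have := m.map_smul_univ (fun s => t s.1) v
  rw [Fintype.prod_sigma] at this
  simp only [Finset.prod_const, Finset.card_univ, Fintype.card_fin] at this
  exact (congrArg m (funext fun i => h _ _)).trans this

section ker

variable (r : P1.Gz ch (Mk ν κ)) (hd : ∑ i, ch.wd j i * ch.m i = 0)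
include r hd

theorem exists_one : ∃ X₀ : ch.Th j →L[ℂ] ch.E (some j), X₀ ≠ 0 ∧ ∀ x : ch.WF ν κ Λ,
    P1.Std x.2 q → ∀ X, ch.kzK j X ∈ (ch.sdK ν κ F j).N x ↔ X ∈ ℂ ∙ X₀ := by
  classical
  obtain ⟨X₀, h0⟩ := exists_lift (u := fun y => P1.ev (ch.h (some j)) y)
    (v := fun y => evL (ch.b j) (P1.par ch y)) fun μ => r.exists_ev (by
      have := (val_mem r.full.sec μ).1
      rw [P1.bz_Os] at this ⊢
      rwa [show ∑ i, (ch.a (some j) i : ℤ) * ch.m i = ∑ i, ch.b j i * ch.m i by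
        simpa only [Ch.wd, _root_.sub_mul, Finset.sum_sub_distrib, sub_eq_zero] using hd])
  refine ⟨X₀, fun e => ?_, fun x h X => kzK_mem_N.trans ⟨fun a => ?_, fun a z hz => ?_⟩⟩
  · obtain ⟨μ, a⟩ := exists_val_one (a := ch.b j) (r.par_ne (0 : ℂ))
    have b := h0 (0 : ℂ) μ
    rw [e, _root_.zero_apply, map_zero] at b
    exact zero_ne_one (b.trans a)
  · choose s hs using fun y => a _ (h.par_mem r y)
    have b : Ind (P1.setX x.2 (update x.2.X j X)) (P1.par ch) (P1.evs ch) j s := fun y μ =>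
      ((congrArg (fun X : ch.Th j →L[ℂ] ch.E (some j) => P1.ev _ y (X μ))
        (update_self j X x.2.X)).trans (hs y μ) :)
    obtain ⟨e, he⟩ := (P1.mem_O (n := 1) (by rw [hd]; rfl) hd.ge).1 (r.ind_iff.1 b).1
    refine Submodule.mem_span_singleton.2
      ⟨e 0, ContinuousLinearMap.ext fun μ => P1.ev_ext' fun z => ?_⟩
    rw [_root_.smul_apply, map_smul, h0]
    refine Eq.trans ?_ (hs z μ).symm
    rw [he, P1.ev_apply]
    simp
  · obtain ⟨e, rfl⟩ := Submodule.mem_span_singleton.1 a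
    obtain ⟨y, s, hs, rfl⟩ := (h.mem_gr r).1 hz
    refine ⟨(∏ i, s i ^ ch.wd j i) * e, fun m => ?_⟩
    change chr _ s * P1.ev _ y (e • X₀ m) = _
    rw [map_smul, h0, val_smul, chr_wd hs, mul_mul_mul_comm]
    rfl

end ker

variable [IsAct act' T] (ho : Orb.Orb A'ˣ (Holo.Sp act' T)) (g : OZ F Z)
  (hf : Tq.Eqh act' (actF F) T Z θ f) (r : P1.Gz ch (Mk ν κ)) (hs : ∀ z ∈ T, P1.Std (f z).2 q)
  (hθ : ∀ a, IsUnit a → ∀ i v, (θ a).2.1 i v = t a i • v)
include ho g hf r hs hθ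

/-- **the cotangent line classes vanish** -/
theorem map_psi (n : Mk ν κ) : H.map hf.toEqv.qm (hcls (psiF n)) = 0 := by
  haveI := g.act
  have k := g.cuts.okψ (F := F) g.base n
  obtain ⟨γ, b, e⟩ := Psi.exists_br r.cur.isNodal.nod (c := P1.par ch (q n))
    ⟨q n, 1, fun _ => one_ne_zero, (one_smul _ _).symm⟩
  have b' : ∀ z ∈ T, IsBranch ch.o (crv (f z).2) γ := fun z hz => (hs z hz).crv_eq r ▸ b
  have e' : ∀ z ∈ T, γ 0 = (f z).2.p n := fun z hz => e.trans ((hs z hz).p n).symm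
  rw [psiF_eq, hcls_neg (k.cocycle g.orb), map_neg, map_eu ho g.orb k hf Tq.Hm.const
    (v := deriv γ 0) (fun z hz => (mem_sdψ_B (g.base _ (hf.maps hz)) (b' z hz) (e' z hz)).2
      ⟨1, by simp⟩) (fun z hz => notMem_sdψ_N (b' z hz) (e' z hz)) fun z hz a ha => ?_,
    lcq_one ho, neg_zero]
  funext i
  have h1 : (dup (θ a).2).2.2 n i • (θ a).2.1 i ((f z).2.p n i) = (f z).2.p n i := by
    have := congrFun (((hs _ (IsAct.mem (act := act') a ha z hz)).p n).trans ((hs z hz).p n).symm) i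
    rwa [hf.eqv a ha z hz] at this
  rw [hθ a ha, smul_smul, (hs z hz).p] at h1
  change (dup (θ a).2).2.2 n i • (θ a).2.1 i _ = (1 : ℂ) • _
  rw [hθ a ha, smul_smul, smul_left_injective ℂ (r.par_ne (q n) i) (h1.trans (one_smul _ _).symm)]

theorem ρX_eq (e : ∀ a, IsUnit a → c a * ∏ i, t a i ^ ch.wd j i = ∏ i, (θ a).1 i ^ F.wt j i)
    {z : W'} (hz : z ∈ T) {a : A'} (ha : IsUnit a) (X : ch.Th j →L[ℂ] ch.E (some j)) :
    ρX F j (θ a) X = c a • X := by
  have ht : ∀ i, t a i ≠ 0 := fun i k => r.par_ne (0 : ℂ) i (by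
    rw [← inv_ap (isUnit_fst (Prod.isUnit_iff.1 (hf.hm.isUnit ha)).2 i) (P1.par ch _ i), hθ a ha, k,
      zero_smul, map_zero])
  have h1 : ∀ v, chr (ch.a (some j)) (t a) • (θ a).2.2.1 (some j) v = v := fun v => by
    obtain ⟨m, rfl⟩ := (hs z hz).Q_surj r (some j) v
    have := congrArg (fun Q => Q (some j) m) ((hs z hz).unique (hs _ (IsAct.mem (act := act') a ha z hz))).1
    rw [hf.eqv a ha z hz] at this
    refine Eq.trans ?_ this
    change _ = (θ a).2.2.1 (some j) ((f z).2.Q (some j) (sub (dup (θ a).2) _ m))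
    rw [sub_scal (s := dup (θ a).2) (hθ a ha), map_smul, map_smul]
  refine ContinuousLinearMap.ext fun m => ?_
  change (∏ i, (θ a).1 i ^ F.wt j i) • (θ a).2.2.1 (some j) (X (sub (dup (θ a).2) _ m)) = c a • X m
  rw [sub_scal (s := dup (θ a).2) (hθ a ha), map_smul, map_smul, ← e a ha, smul_smul, mul_assoc,
    ← chr_wd ht, mul_smul, h1]

/-- **the index class is the class of the bundle of constant sections** -/
theorem map_indC (hd : ∑ i, ch.wd j i * ch.m i = 0) (hc : Tq.Hm c)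
    (e : ∀ a, IsUnit a → c a * ∏ i, t a i ^ ch.wd j i = ∏ i, (θ a).1 i ^ F.wt j i)
    {u : Hev (Quo act' T)} (hu : u.1 = Tq.lcq act' T c) :
    PowerSeries.map (Hev.map hf.toEqv.qm).toRingHom (indC F Z j) = 1 + C u * X := by
  haveI := g.act
  obtain ⟨X₀, h0, hk⟩ := exists_one (F := F) (q := q) r hd
  have kX := okX (F := F) Z j
  have kK := g.cuts.okK (F := F) g.base j
  have pK := kK.pb (eqM hf)
  have ex := ch_ker ho (kX.pb (eqM hf)) pK hc h0 (fun _ _ => trivial) (fun _ => rfl)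
    (fun z hz a ha => ρX_eq ho g hf r hs hθ e hz ha X₀) (L := fun _ => ch.kzK j)
    ⟨fun _ _ => continuousOn_const, fun z _ w _ => kzK_mem_B (F := F) (x := f z) w, fun _ _ _ k =>
      mem_of_eq_of_mem ((congrArg _ k).trans (map_zero _)) (zero_mem _), fun _ _ a ha w _ =>
        mem_of_eq_of_mem (sub_eq_zero.2 (kzK_ρ (hf.hm.isUnit ha) w)) (zero_mem _)⟩
    (fun z hz => hk _ (hs z hz)) fun ⟨z, hz⟩ => by
      have := rkO_eq (j := j) g.cuts.ne (g.base _ (hf.maps hz))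
      rw [Ch.eu, hd, r.g] at this
      omega
  have k := pK.constCoeff ho
  rw [ch_pb ho g.orb kX hf, ← indC_mul g.orb g.cuts g.base j, map_mul, ← ch_pb ho g.orb kK hf,
    ch_sdc ho hc hu] at ex
  exact (PowerSeries.isUnit_iff_constantCoeff.2 (k ▸ isUnit_one)).mul_right_cancel ex

end Vale.Agent.P269.Ch.ThP
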