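import Vale.Agent.P287Q.G.Qrr.ThP
import Vale.Agent.P287Q.G.Qrr.ThC
import Vale.Agent.P287Q.G.Qrr.ThI
import Vale.Agent.P287Q.G.Qrr.ThV

/-!
# The twisted three point invariants of genus zero and degree zero
-/

set_option linter.unusedSectionVars false

namespace Vale.Agent.P269

open P291Z Set Function Topology Filter Ch PowerSeries

namespace Th

theorem intg_surj {X Y : Type} [TopologicalSpace X] [TopologicalSpace Y] [Nice Y] [CompactSpace X]
    [CompactSpace Y] (e : C(X, Y)) (h : IsOpenEmbedding e) (hs : Surjective e) (β : BM Y) (y : H Y) :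
    Loc.intg β y = Loc.intg (res e β) (H.map e y) := by
  obtain ⟨t, ht, rfl⟩ := hcls_surj y
  rw [H.map_hcls _ ht, Loc.intg_hcls _ (cocycle_pull e.continuous ht), Loc.intg_hcls _ ht,
    Orb.ev_res h β ⟨(isClosed_supp _).isCompact, ht⟩ fun x _ => hs x]

theorem Dat.map_cls {S Λ R J K ι : Type} [Fintype S] [Fintype Λ] [Fintype R] [Fintype J] [Fintype K]
    [Fintype ι] [DecidableEq ι] {ch : Ch ι J} {F : Fam S Λ R J K} {ℓ : R → ι → ℤ} {n : ℕ}
    (c : Dat (Fin n ⊕ Fin 0) (Fin 0) ch F.toWt ℓ) {Z : Set (ch.WF (Fin n ⊕ Fin 0) (Fin 0) Λ)}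
    (hz : GZ F ℓ Z) [Mono.FP F.actT F.cone] (h : Tq.Eqh F.actT (actF F.toWt) F.cone Z c.θ c.σ) (Θ)
    (f : Fin n → ℕ × H (F.X F.cone)) :
    H.map h.toEqv.qm ((Qrr.evC (indC F.toWt Z) Θ).1 * insC F Z f) =
      (Qrr.evC (fun j => 1 + C (F.lce F.cone (F.wt j, F.w j)) * X) Θ).1 *
        (List.ofFn fun s => 0 ^ (f s).1 * (f s).2).prod := by
  rw [map_mul, ← Hev.coe_map, Qrr.evC, MvPolynomial.comp_aeval_apply, insC, map_list_prod,
    List.map_ofFn]
  simp only [← c.map_indC hz h, Qrr.evC, coeff_map, comp_def, ins1, map_mul, map_pow,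
    c.map_psi hz h, c.map_ev hz h]
  rfl

variable {Λ R J K : Type} [Fintype Λ] [Fintype R] [Fintype J] [Fintype K] [DecidableEq R]
  {F : Fam Empty Λ R J K} {k D : ℕ}

theorem intg_three (h : F.One k) (hD : F.BigD k D) (Θ) {u : J → Hev (F.X F.cone)}
    (hu : ∀ j, (u j).1 = F.lc _ 0 (F.w j)) (f : Fin 3 → ℕ × H (F.X F.cone)) :
    F.intg (F.vir (Fin 0) k D 0 0 (0 : Fin 3 ⊕ Fin 0 → J → ℕ)) (fun m => m.Conn) (F.fsF _ Θ f) =
      F.intX _ ((Qrr.evC (fun j => 1 + C (u j) * X) Θ).1 *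
        (List.ofFn fun s => 0 ^ (f s).1 * (f s).2).prod) := by
  have hν : Fintype.card (Fin 3 ⊕ Fin 0) = 3 := rfl
  obtain ⟨c⟩ := exists_dat (κ := Fin 0) h.big hD hν
  have e := c.eqh h.good.toInv (subset_inter subset_rfl (h.abs.sol_subset h.good.toInv))
  have hz := h.gz' (Fin 3 ⊕ Fin 0) (Fin 0) hD 0 0 0
  have := h.compactSpace (ν := Fin 3 ⊕ Fin 0) (κ := Fin 0) (g := 0) (d := 0) (u := 0) hD
  have := h.good.fp
  have := h.good.compact h.cp
  have := hz.nice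
  obtain ⟨a, b⟩ := c.res_vir h hD hν e
  obtain rfl : u = fun j => F.lce F.cone (F.wt j, F.w j) := funext fun j => Subtype.ext
    ((hu j).trans ((congrArg (F.lc _ · _) (Subsingleton.elim _ _)).trans (Wt.lce_val _ _).symm))
  rw [Fam.intg_sel hz _ (by rw [sel_conn h.good.toInv hD hν]; exact isClopen_univ) (hz.at_fsF Θ f),
    sel_conn h.good.toInv hD hν, Qrr.Fc.ind_univ, hcls_one, one_mul, hz.prod_fsF,
    intg_surj _ a (c.surj_qm h.good.toInv hD hν e), b, c.map_cls hz e, Wt.intX_eq]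

end Th

theorem St.threeT : St.ThreeT := by
  intro Λ R J K _ _ _ _ _ F k Θ u h hu f
  have a := (F.eventually_bigD k).mono fun D hD => (Th.intg_three h hD Θ hu f).symm
  obtain ⟨D, b, c⟩ := (a.and (Classical.epsilon_spec (p := fun z => ∀ᶠ D in atTop, z = F.intg
    (F.vir (Fin 0) k D 0 0 (0 : Fin 3 ⊕ Fin 0 → J → ℕ)) (fun m => m.Conn) (F.fsF _ Θ f))
      ⟨_, a⟩)).exists
  refine (c.trans b.symm).trans ?_
  split_ifs with e
  · simp only [e, pow_zero, one_mul, List.ofFn_succ, List.ofFn_zero, List.prod_cons, List.prod_nil,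
      mul_one, mul_assoc]
    rfl
  · obtain ⟨s, e⟩ := not_forall.1 e
    rw [List.prod_eq_zero (List.mem_ofFn.2 ⟨s, by rw [zero_pow e, zero_mul]⟩), mul_zero]
    have := h.good.compact h.cp
    exact (Wt.intX_eq _).trans (map_zero _)

end Vale.Agent.P269
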