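import Vale.Agent.P287Q.G.Qrr.Bas
import Vale.Agent.P269.Deg.G3A
import Vale.Agent.P287Q.G.Fg.Pt

/-!
# Quantum Riemann-Roch: the components that become unstable
-/

set_option linter.unusedSectionVars false

namespace Vale.Agent.P269

namespace Deg.Fn

open Fock

variable {V : Type*} [AddCommGroup V] [Module ℂ V] {p : Par ℂ V} {s : SPar ℂ ℂ}

lemma σ_self (b : ℂ) : s.σ b = b := s.σ.commutes b

lemma isEv_one : IsEv p p (1 : Module.End ℂ V) := fun _ => rfl

/-- Functionals that are homogeneous of degree `n`. -/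
def Eig (n : ℤ) (F : Fn p s) : Prop := ∀ x, F.ap (dv p 1 x) = n * F.ap x

namespace Eig

variable {n : ℤ} {F : Fn p s}

lemma der (h : Eig n F) (v : V) : Eig (n - 1) (D v F) := fun x => by
  have := h (ι p v * x)
  rw [dv_ι_mul isEv_one, map_add, Module.End.one_apply] at this
  rw [D_ap, D_ap]
  push_cast
  linear_combination this

lemma ap_one (h : Eig n F) (hn : n ≠ 0) : F.ap 1 = 0 := by
  have := h 1
  rw [dv_one, map_zero] at this
  exact (mul_eq_zero.1 this.symm).resolve_left (Int.cast_ne_zero.2 hn)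

lemma par (h : Eig n F) : Eig n (τ F) := fun x => by
  rw [τ_ap, τ_ap, σ_self, σ_self, par_dv isEv_one, h]

lemma eq_zero (h : Eig n F) (hn : n < 0) : F = 0 :=
  coind (fun G => ∃ m : ℤ, m < 0 ∧ Eig m G) (fun _ ⟨_, a, b⟩ => b.ap_one a.ne)
    (fun _ v ⟨m, a, b⟩ _ => Submodule.subset_span ⟨m - 1, by omega, b.der v⟩) ⟨n, hn, h⟩

lemma eq_cst (h : Eig 0 F) : F = cst (F.ap 1) := by
  ext x
  induction x using induction with
  | h1 => simp
  | hι v x _ => rw [← D_ap, ← D_ap, D_cst, (h.der v).eq_zero (by norm_num)]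
  | hadd x y hx hy => simp only [map_add, hx, hy]
  | hsmul c x hx => simp only [map_smul, hx]

lemma zero_mul_ap (h : Eig 0 F) (G : Fn p s) (x : S p) : (F * G).ap x = F.ap 1 * G.ap x := by
  rw [← cst_mul_ap (σ_self _), ← h.eq_cst]

lemma one_mul_ap (h : Eig 1 F) {φ : Module.Dual ℂ V} (e : ∀ v, F.ap (ι p v) = φ v) (G : Fn p s)
    (x : S p) : (F * G).ap x = G.ap (con p φ x) := by
  have h0 : ∀ {F : Fn p s}, Eig 1 F → ∀ v, Eig 0 (D v F) := fun h v => by simpa using h.der v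
  induction x using induction' generalizing F G φ with
  | h1 => simp [h.ap_one one_ne_zero]
  | hev v x hv hx =>
    rw [← D_ap, D_mul_ev hv, add_ap, hx h e, (h0 h v).zero_mul_ap,
      con_ι_mul_ev _ hv, map_add, map_smul, D_ap, D_ap, mul_one, e, smul_eq_mul]
  | hod v x hv hx =>
    rw [← D_ap, D_mul_od hv, add_ap, hx h.par (φ := φ ∘ₗ p.σ) fun w => by
      rw [τ_ap, σ_self, par_ι, e]; rfl, (h0 h v).zero_mul_ap,
      con_ι_mul_od _ hv, map_add, map_smul, D_ap, D_ap, mul_one, e, smul_eq_mul]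
  | hadd x y hx hy => simp only [map_add, hx h e, hy h e]
  | hsmul c x hx => simp only [map_smul, hx h e]

lemma two_mul_ap (h : Eig 2 F) {Q : SymB p} (e : ∀ v w, F.ap (ι p v * ι p w) = Q.1 v w)
    (G : Fn p s) (x : S p) : (F * G).ap x = G.ap (con2 p Q x) := by
  have h1 : ∀ {F : Fn p s}, Eig 2 F → ∀ v, Eig 1 (D v F) := fun h v => by simpa using h.der v
  induction x using induction' generalizing F G with
  | h1 => simp [h.ap_one two_ne_zero]
  | hev v x hv hx =>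
    rw [← D_ap, D_mul_ev hv, add_ap, hx h e, (h1 h v).one_mul_ap (φ := Q.1 v) (e v), con2_ι_mul,
      map_add, D_ap, add_comm]
  | hod v x hv hx =>
    rw [← D_ap, D_mul_od hv, add_ap, hx h.par fun a b => by
      rw [τ_ap, σ_self, map_mul, par_ι, par_ι, e, ← SymB.comp_σ Q.2, LinearMap.comp_apply, p.inv],
      (h1 h v).one_mul_ap (φ := Q.1 v) (e v), con2_ι_mul, map_add, D_ap, add_comm]
  | hadd x y hx hy => simp only [map_add, hx h e, hy h e]
  | hsmul c x hx => simp only [map_smul, hx h e]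

end Eig

end Deg.Fn

open P291Z Set Function Fock PowerSeries Cv Deg.Fn

theorem Qrr.dv_one_monF {V : Type} [AddCommGroup V] [Module ℂ V] {p : Par ℂ V} {n : ℕ}
    (f : Fin n → ℕ × V) : dv _ 1 (Qrr.monF p f) = (n : ℂ) • Qrr.monF p f := by
  induction n with
  | zero => rw [Qrr.monF_zero, dv_one, Nat.cast_zero, zero_smul]
  | succ n ih => rw [Qrr.monF_succ, dv_ι_mul isEv_one, ih, Module.End.one_apply, mul_smul_comm,
      Nat.cast_succ, add_smul, one_smul, add_comm]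

variable {S Λ R J K ν κ : Type} [Fintype S] [Fintype Λ] [Fintype R] [Fintype J] [Fintype K]
  [Fintype ν] [Fintype κ]

/-- The component of the marking `q` has degree zero, genus `j + 1` and `n` markings. -/
def AM.Tp (q : Ch.Mk ν κ) (n : ℕ) (j : ℤ) (m : AM Λ R J ν κ) : Prop :=
  ∃ M : Set _, M.ncard = n ∧ m.CTyp (m.p q) (j + 1) 0 M

theorem AM.Same.tp {m m' : AM Λ R J ν κ} (h : m.Same m') {q : Ch.Mk ν κ} {n : ℕ} {j : ℤ}
    (a : m.Tp q n j) : m'.Tp q n j := a.imp fun _ b => ⟨b.1, h.ctyp b.2⟩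

theorem AM.Tp.unique {m : AM Λ R J ν κ} {q : Ch.Mk ν κ} {n n' : ℕ} {j j' : ℤ} (a : m.Tp q n j)
    (b : m.Tp q n' j') : j = j' :=
  let ⟨_, _, a⟩ := a
  let ⟨_, _, b⟩ := b
  add_right_cancel (a.unique b).1

theorem AM.Sol.un_iff [DecidableEq R] {F : Fam S Λ R J K} (hF : F.Good) {m : AM Λ R J ν κ}
    (h : m.Sol F) (q : Ch.Mk ν κ) : m.Un F.θ q ↔ m.Tp q 3 (-1) ∨ m.Tp q 1 0 := by
  classical
  obtain ⟨g, d, T, a⟩ := m.exists_ctyp (m.p q)
  have e : ∀ n j, m.Tp q n j ↔ T.ncard = n ∧ g = j + 1 ∧ d = 0 := fun n j =>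
    ⟨fun ⟨_, b, c⟩ => ⟨(a.unique c).2.2 ▸ b, (a.unique c).1, (a.unique c).2.1⟩,
      fun ⟨b, c, f⟩ => ⟨T, b, c ▸ f ▸ a⟩⟩
  have b : (Finset.univ.filter fun n => m.p n ∈ m.cmp (m.p q)).card = T.ncard := by
    rw [← ncard_coe_finset]
    exact congrArg _ (Set.ext fun n => by simp [a.2.2])
  have c : 0 < T.ncard := (ncard_pos T.toFinite).2 ⟨q, (a.2.2 q).1 (AC.mem_cmp_self _)⟩
  have f : d = 0 → degOn (bz m.L F.θ) (m.cmp (m.p q)) = 0 := fun f => by
    simp [degOn_bz, a.2.1, f]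
  rw [AM.Un, degOn_mul, AC.degOn_ω_eq (AC.sat_cmp _).1, a.1, b, e, e]
  refine ⟨fun i => ?_, fun i => ?_⟩
  · have l : d = 0 := funext fun r => (a.2.1 r).symm.trans (h.degOn_zero hF (by omega) r)
    have := f l
    simp only [l, and_true]
    omega
  · have := f (i.elim (·.2.2) (·.2.2))
    omega

namespace Fam.One

variable [DecidableEq R] {F : Fam Empty Λ R J K} {k : ℕ} (h : F.One k) {n : ℕ}
  {P P' : AM Λ R J (Fin n ⊕ Fin 0) (Fin 0) → Prop} {d : R → ℤ} {j : ℤ}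
include h

theorem corP_add (hA : St.Add) (hP : F.Sel k (j + 1) d 0 P) (hP' : F.Sel k (j + 1) d 0 P') (Θ)
    (f : Fin n → ℕ × H (F.X F.cone)) : F.corP k P Θ d j f =
      F.corP k (fun m => P m ∧ P' m) Θ d j f + F.corP k (fun m => P m ∧ ¬P' m) Θ d j f := by
  have e : (fun s => (0 : Fin n ⊕ Fin 0 → ℕ) s • (0 : J → ℕ)) = 0 := funext fun _ => smul_zero _
  have := hA F 0 k (j + 1) d 0 P P' (F.fsF _ Θ f) h.nice h.cp h.big (e ▸ hP) (e ▸ hP')
    (Wt.fsF_ok Θ f _) fun q => q.elim0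
  rwa [e] at this

theorem corP_congr (hP : F.Sel k (j + 1) d 0 P) (hP' : F.Sel k (j + 1) d 0 P')
    (e : ∀ m, m.Sol F → (P m ↔ P' m)) (Θ) (f : Fin n → ℕ × H (F.X F.cone)) :
    F.corP k P Θ d j f = F.corP k P' Θ d j f :=
  inv_congr h.good.toInv hP.1 hP'.1 (fun m a _ _ => e m a) _

theorem corP_un (hA : St.Add) (q) (Θ) (f : Fin n → ℕ × H (F.X F.cone)) :
    F.corP k (fun _ => True) Θ d j f = F.corP k (fun m => ¬m.Un F.θ q) Θ d j f +
      F.corP k (AM.Tp q 3 (-1)) Θ d j f + F.corP k (AM.Tp q 1 0) Θ d j f := by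
  have a : F.Sel k (j + 1) d 0 (AM.Un F.θ q) := .of_same fun _ _ e => e.un
  have b : ∀ n l, F.Sel k (j + 1) d 0 (AM.Tp q n l) := fun _ _ => .of_same fun _ _ e => e.tp
  rw [h.corP_add hA .top a]
  simp only [true_and]
  rw [h.corP_add hA a (b 3 (-1)), h.corP_congr (a.and (b 3 (-1))) (b 3 (-1)) fun m c =>
      and_iff_right_of_imp fun e => (c.un_iff h.good q).2 (.inl e),
    h.corP_congr (a.and (b 3 (-1)).not) (b 1 0) fun m c => by
      rw [c.un_iff h.good]
      exact ⟨fun e => e.1.resolve_left e.2, fun e => ⟨.inr e, fun i => by cases e.unique i⟩⟩]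
  ring

theorem eig_exN (hS : St.Spec) (n Θ) {V : Type} [AddCommGroup V] [Module ℂ V] {p : Par ℂ V}
    {i : V →ₗ[ℂ] H (F.X F.cone)} (hi : IsEv p (parH _) i) (d j) :
    Eig (n : ℕ) (of (Deg.SPar.triv ℂ ℂ) (F.ser0 k (F.exN n Θ) p i d j)) := fun x => by
  induction x using Qrr.monF_ind with
  | h m f =>
    rw [Qrr.dv_one_monF, map_smul, ap_of, h.ser0_exN hS n Θ hi]
    split_ifs with a
    · rw [← a, Int.cast_natCast, smul_eq_mul]
    · rw [smul_zero, mul_zero]
  | hadd x y hx hy => simp only [map_add, hx, hy, mul_add]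
  | hsmul a x hx => simp only [map_smul, hx, smul_eq_mul, mul_left_comm]

end Fam.One

theorem St.unQ (hP : St.PrQ) (h3 : St.ThreeT) (hA : St.Add) (hS : St.Spec) : St.UnQ := by
  intro Λ R J K _ _ _ _ _ F k C i u Θ β T Θ₁ Θ₂ h hC hu hΘ d j n f r c Q _ hQ
  obtain ⟨v, rfl⟩ := hC.bij.2 c
  have h0 : F.intX F.cone 0 = 0 := by simpa using (hC.η 0 0).symm
  rw [h.corP_un hA (mk0 0)]
  congr 1
  · refine congrArg _ ((hP F k C.p i Θ T Θ₁ Θ₂ h hC.ev hΘ d 0 j (-1) 3 f r v).trans ?_)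
    rw [Finset.ite_sum_zero]
    refine Finset.sum_congr rfl fun t ht => ?_
    have e : Eig 2 _ := (h.eig_exN hS 3 (Θ₁ t) hC.ev 0 (-1)).der (Finsupp.single r v)
    rw [Deg.G3a.tp_diag, e.two_mul_ap (Q := if r = 0 then Q t else 0), ap_of, sub_zero,
      sub_neg_eq_add]
    · split_ifs <;> simp
    intro x y
    rw [D_ap, ap_of]
    induction x using Finsupp.induction_linear with
    | zero => simp
    | add x x' hx hx' => simp only [map_add, add_mul, mul_add, hx, hx', LinearMap.add_apply]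
    | single a x =>
      induction y using Finsupp.induction_linear with
      | zero => simp
      | add y y' hy hy' => simp only [map_add, mul_add, hy, hy']
      | single b y =>
        have := h.ser0_exN hS 3 (Θ₁ t) hC.ev 0 (-1) ![(r, v), (a, x), (b, y)]
        rw [if_pos rfl, h3 F k _ u h hu] at this
        simp only [Qrr.monF_succ, Qrr.monF_zero, mul_one] at this
        refine this.trans ?_
        by_cases a₁ : r = 0 <;> by_cases a₂ : a = 0 <;> by_cases a₃ : b = 0 <;>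
          simp [Fin.forall_fin_succ, a₁, a₂, a₃, hQ t ht, h0]
  · refine (hP F k C.p i Θ T Θ₁ Θ₂ h hC.ev hΘ d 0 j 0 1 f r v).trans
      (Finset.sum_congr rfl fun t _ => ?_)
    have e : Eig 0 _ := (h.eig_exN hS 1 (Θ₁ t) hC.ev 0 0).der (Finsupp.single r v)
    have := h.ser0_exN hS 1 (Θ₁ t) hC.ev 0 0 ![(r, v)]
    rw [if_pos rfl, show Prod.map id i ∘ ![(r, v)] = ![(r, i v)] from
      funext fun s => by fin_cases s; rfl] at this
    rw [Deg.G3a.tp_diag, e.zero_mul_ap, ap_of, sub_zero, sub_zero, ← this]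
    rfl

end Vale.Agent.P269
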